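import Vale.Agent.P292.Z.Emb

/-! P292 Z/Dist (TASK). `Mom.norm`: `⁅μ, ⁅μ, a⁆⁆ = (c κ (μ, a)) • μ` with `κ (μ, a) ≠ 0` (`inj`, `a = b 0`), so `μ = ⁅μ, s⁆` and `κ (μ, z) = κ (⁅μ, s⁆, z) = - κ (s, ⁅μ, z⁆) = 0`. `tan`: `span` for `D ∘ x`; `D` and `∑ z i • X (b i)` agree on `range x`, so on `cl (range x)` (`der_kill`, `dv_spec`); `Mom.der`, `brK_sum_left`; `om x (eu x) (vec f) = f` (`der_eq_om` for the Euler field, `wt`), `om_form` or `om_right` for the sum, `killK_sum`. `dist`: `Em.ext`; `x = sc r (ι ∘ c)`, `D' x = sc r (ι ∘ D c)`, `om_sc`, `om_map` (`S.c ≠ 0`, `S.On S.c`), so `θ D = 0 ↔ κ (μ, z) = 0` for the `z` of `tan`, and `ι (D x₀) = ⁅- z, ι x₀⁆`. Forward: make `W` a `K`-algebra through `ι`, apply a `K`-linear retraction `W → K` to the coordinates of `z` (`LinearMap.exists_leftInverse_of_injective`). Backward: `Mom.norm` for `z + ι z'` (`brK_map`, `killK_map`). Helper names start with `zdi_`. -/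

open Set Matrix

set_option linter.unusedSectionVars false

noncomputable section

namespace Vale.Agent.P292

open Vale.Agent.P271 Vale.Agent.P276

variable {G : Type} [LieRing G] [LieAlgebra ℂ G] {M : ℕ} {b : Module.Basis (Fin (M + 1)) ℂ G}
  {K : Type} [Field K] [Algebra ℂ K] {N n m : ℕ} {t : Fin (N + 1) → K} {S : Cn K N}
  {W : Type} [Field W] [Algebra ℂ W] [IsAlgClosed W] {x : Fin S.M → W} {μ : Fin (M + 1) → W}
  {w : Fin (M + 1) → ℂ} {ι : K →ₐ[ℂ] W} {r : W} {x₀ : Fin (M + 1) → K}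

theorem zdi_retr (ι : K →ₐ[ℂ] W) :
    ∃ π : W →+ K, (∀ a w, π (ι a * w) = a * π w) ∧ π 1 = 1 := by
  let _ : Algebra K W := ι.toRingHom.toAlgebra
  obtain ⟨g, hg⟩ := (Algebra.linearMap K W).exists_leftInverse_of_injective
    (LinearMap.ker_eq_bot.2 ι.toRingHom.injective)
  refine ⟨g.toAddMonoidHom, fun a w => g.map_smul a w, ?_⟩
  have := LinearMap.congr_fun hg 1
  rwa [LinearMap.comp_apply, Algebra.linearMap_apply, map_one] at this

theorem zdi_sum {τ : Type} (s : Finset τ) (D : τ → Derivation ℂ W W) (a : W) :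
    (∑ i ∈ s, D i) a = ∑ i ∈ s, D i a := by
  classical
  induction s using Finset.induction_on with
  | empty => rfl
  | insert i s hi ih => rw [Finset.sum_insert hi, Finset.sum_insert hi, Derivation.add_apply, ih]

theorem zdi_wt (h : Nm b S n x μ) (a : G) : S.Wt ∅ x 1 (killK b μ (co b W a)) := by
  refine ⟨sum_mem fun j _ => sum_mem fun k _ => IntermediateField.smul_mem _
    (mul_mem (h.wt j).1 (IntermediateField.algebraMap_mem _ _)), ?_⟩
  have h1 : (fun j => S.dv ∅ x (S.eu x) (μ j)) = μ := funext fun j => by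
    rw [(h.wt j).2, Nat.cast_one, one_mul]
  have h2 : (fun j => S.dv ∅ x (S.eu x) (co b W a j)) = (0 : W) • μ := funext fun j => by
    rw [co, Derivation.map_algebraMap, zero_smul]
    rfl
  rw [killK_der, h1, h2, killK_smul_right, zero_mul, add_zero, Nat.cast_one, one_mul]

theorem Mom.norm {X : G → Derivation ℂ W W} {lam : G → W} (h : Mom b X lam μ) {z : Fin (M + 1) → W}
    (hz : brK b z μ = 0) : killK b μ z = 0 := by
  obtain ⟨c, hc, he⟩ := h.ext
  have h1 : killK b μ (co b W (b 0)) ≠ 0 := fun e => b.ne_zero 0 (h.inj _ e)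
  have h2 := killK_inv (b := b) z μ (brK b μ (co b W (b 0)))
  rw [hz, he, killK_smul_right, killK_symm z, killK_symm 0, ← zero_smul W (0 : Fin (M + 1) → W),
    killK_smul_right, zero_mul] at h2
  exact (mul_eq_zero.1 h2.symm).resolve_left (mul_ne_zero hc h1)

theorem Nm.tan (hS : S.Ok t n m) (h : Nm b S n x μ) (D : Derivation ℂ W W) :
    ∃ z, killK b μ z = S.om x (S.eu x) (fun j => D (x j)) ∧ ∀ i, D (μ i) = -brK b z μ i := by
  have hon := h.gen.2.1
  obtain ⟨z, hz⟩ := h.span _ (hon.der D)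
  have hv := fun i => (vec_tan hS h.gen (zdi_wt h (b i)).1).1
  refine ⟨z, ?_, fun k => ?_⟩
  · obtain ⟨B, -, -, hB⟩ := om_form hS hon h.gen.ne
    have h1 := map_sum (B ⟨_, hon.eu⟩) (fun i => z i • (⟨_, hv i⟩ : S.TanS x)) Finset.univ
    simp only [map_smul, smul_eq_mul] at h1
    simp only [hB, Submodule.coe_sum, Submodule.coe_smul] at h1
    rw [hz, h1, killK_sum]
    refine Finset.sum_congr rfl fun i _ => congrArg _ ?_
    have h2 := dv_spec hS h.gen hon.eu
    have h3 := der_eq_om hS h.gen h2.1 (zdi_wt h (b i)).1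
    rwa [(zdi_wt h (b i)).2, Nat.cast_one, one_mul, funext h2.2] at h3
  · have h1 := der_kill (A := ∅ ∪ range x)
      (D := D - ∑ i, z i • S.dv ∅ x (S.vec ∅ x (killK b μ (co b W (b i))))) (by
        rintro _ (h0 | ⟨j, rfl⟩)
        · exact h0.elim
        · rw [Derivation.sub_apply, zdi_sum, congrFun hz j, Finset.sum_apply, sub_eq_zero]
          refine Finset.sum_congr rfl fun i _ => ?_
          rw [Derivation.smul_apply, (dv_spec hS h.gen (hv i)).2]
          rfl) _ (h.wt k).1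
    rw [Derivation.sub_apply, zdi_sum, sub_eq_zero] at h1
    rw [h1, brK_sum_left, Finset.sum_apply, ← Finset.sum_neg_distrib]
    refine Finset.sum_congr rfl fun i _ => ?_
    rw [Derivation.smul_apply, h.mom.der, zero_mul, zero_sub, smul_neg]
    rfl

theorem Nm.dist (hS : S.Ok t n m) {θ : Derivation ℂ K K →ₗ[K] K} (hθ : S.Link θ) (h : Nm b S n x μ)
    (he : Em S x ι r) (hx : ∀ i, μ i = r * ι (x₀ i)) (D : Derivation ℂ K K) :
    θ D = 0 ↔ ∃ z, killK b x₀ z = 0 ∧ ∀ i, D (x₀ i) = brK b z x₀ i := by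
  obtain ⟨D', hD, hr⟩ := he.ext D
  obtain ⟨z, h1, h2⟩ := h.tan hS D'
  have hc : S.On S.c := fun _ _ _ h0 => h0
  have hc0 : S.c ≠ 0 := fun e => h.gen.ne (funext fun j => by simp [he.eq, e])
  have hc1 : (fun i => ι (S.c i)) ≠ 0 := fun e => hc0 (funext fun j =>
    (map_eq_zero ι).1 (congrFun e j))
  have e1 : x = S.sc r fun i => ι (S.c i) := funext he.eq
  have e2 : S.eu x = S.sc r fun i => ι (S.eu S.c i) := funext fun i => by
    simp only [Cn.eu, Cn.sc, he.eq, map_mul, map_natCast]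
    ring
  have e3 : (fun j => D' (x j)) = S.sc r fun i => ι (D (S.c i)) := funext fun i => by
    simp [Cn.sc, he.eq, Derivation.leibniz_pow, hr, hD]
  have e4 : μ = r • fun i => ι (x₀ i) := funext hx
  rw [e2, e3, e1, om_sc hS (hc.map ι) hc1 (hc.eu.map ι) ((hc.der D).map ι) he.ne,
    om_map hS hc hc0 hc.eu (hc.der D)] at h1
  have h3 : ∀ y, killK b μ y = r * killK b (fun i => ι (x₀ i)) y := fun y => by
    rw [e4, killK_symm, killK_smul_right, killK_symm]
  have h4 : θ D = 0 ↔ killK b (fun i => ι (x₀ i)) z = 0 := by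
    rw [hθ, mul_left_cancel₀ he.ne ((h3 z).symm.trans h1), map_eq_zero]
  have h5 : ∀ i, ι (D (x₀ i)) = -brK b z (fun i => ι (x₀ i)) i := fun i => by
    have := h2 i
    rw [hx, Derivation.leibniz, hr, smul_zero, add_zero, hD, e4, brK_smul_right, Pi.smul_apply,
      ← smul_neg] at this
    exact mul_left_cancel₀ he.ne this
  rw [h4]
  constructor
  · intro h6
    obtain ⟨π, p1, p2⟩ := zdi_retr ι
    have p3 : ∀ (c : ℂ) a w, π (c • (ι a * w)) = c • (a * π w) := fun c a w => by
      rw [← smul_mul_assoc, ← map_smul, p1, smul_mul_assoc]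
    refine ⟨fun j => -π (z j), ?_, fun i => ?_⟩
    · have := congrArg π h6
      simp only [killK, map_sum, p3, map_zero] at this
      simp only [killK, mul_neg, smul_neg, Finset.sum_neg_distrib, this, neg_zero]
    · have := congrArg π (h5 i)
      rw [← mul_one (ι _), p1, p2, mul_one] at this
      simp only [this, brK, map_neg, map_sum, mul_comm (z _), p3, neg_mul, smul_neg,
        Finset.sum_neg_distrib, mul_comm (π _)]
  · rintro ⟨z', h6, h7⟩
    have h8 : brK b (z + fun j => ι (z' j)) μ = 0 := by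
      rw [e4, brK_smul_right, brK_add_left]
      funext i
      rw [Pi.smul_apply, Pi.add_apply, ← brK_map, ← h7, h5, add_neg_cancel, smul_zero]
      rfl
    have h9 := h.mom.norm h8
    rw [h3, killK_add_right, ← killK_map, h6, map_zero, add_zero] at h9
    exact (mul_eq_zero.1 h9).resolve_left he.ne

end Vale.Agent.P292
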