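import Vale.Agent.P292.Z.Defs

/-! P292 Z/Loc (TASK). `onX_map`, `loc_map`: `aeval_smul_hom`, injectivity, `loc_rep`, `br_ne`. `loc_eq`: take `q l ≠ 0`; `s j / s l ∈ locRing s q ≤ locRing s q'`, so `q' l ≠ 0` (`ne_of_chart_mem`); the values agree (`exists_lev`, `res_unique` for the composite with the inclusion), so `q j / q l = q' j / q' l`; the local ring does not change when the point is scaled. Helper names start with `zlo_`. -/

open Set Matrix

set_option linter.unusedSectionVars false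

noncomputable section

namespace Vale.Agent.P292

open Vale.Agent.P271 Vale.Agent.P276

variable {G : Type} [LieRing G] [LieAlgebra ℂ G] {M : ℕ} {b : Module.Basis (Fin (M + 1)) ℂ G}
  {K : Type} [Field K] [Algebra ℂ K] {N n m : ℕ} {t : Fin (N + 1) → K} {S : Cn K N}
  {W : Type} [Field W] [Algebra ℂ W] [IsAlgClosed W] {x : Fin S.M → W} {μ : Fin (M + 1) → W}
  {w : Fin (M + 1) → ℂ} {ι : K →ₐ[ℂ] W} {r : W} {x₀ : Fin (M + 1) → K}

theorem zlo_ev {k d : ℕ} (s : Fin (k + 1) → K) {P : MvPolynomial (Fin (k + 1)) ℂ}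
    (hP : P.IsHomogeneous d) :
    MvPolynomial.aeval (fun i => r * ι (s i)) P = r ^ d * ι (MvPolynomial.aeval s P) := by
  rw [aeval_smul_hom hP, MvPolynomial.comp_aeval_apply]

theorem onX_map {k : ℕ} {s : Fin (k + 1) → K} {q : Fin (k + 1) → ℂ} (hr : r ≠ 0) :
    OnX (fun i => r * ι (s i)) q ↔ OnX s q := by
  refine and_congr_right fun _ => forall_congr' fun d => forall_congr' fun P =>
    imp_congr_right fun hP => ?_
  rw [zlo_ev s hP, mul_eq_zero, or_iff_right (pow_ne_zero _ hr), map_eq_zero]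

theorem loc_map {k : ℕ} {s : Fin (k + 1) → K} {q : Fin (k + 1) → ℂ} (hr : r ≠ 0) (hq : OnX s q)
    {a : K} : ι a ∈ locRing (fun i => r * ι (s i)) q ↔ a ∈ locRing s q := by
  refine ⟨fun h => ?_, fun h => ?_⟩
  · obtain ⟨d, P, Q, hP, hQ, h1, h2⟩ := loc_rep h
    refine Algebra.subset_adjoin ⟨d, P, Q, hP, hQ, h1, ι.injective ?_⟩
    rw [zlo_ev s hP, zlo_ev s hQ, mul_left_comm, ← map_mul] at h2
    exact mul_left_cancel₀ (pow_ne_zero _ hr) h2
  · obtain ⟨d, P, Q, hP, hQ, h1, h2⟩ := loc_rep h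
    refine Algebra.subset_adjoin ⟨d, P, Q, hP, hQ, h1, ?_⟩
    rw [zlo_ev s hP, zlo_ev s hQ, mul_left_comm, ← map_mul, h2]

theorem loc_eq {k : ℕ} {s : Fin (k + 1) → K} {q q' : Fin (k + 1) → ℂ} (hq : OnX s q)
    (hq' : OnX s q') (h : locRing s q ≤ locRing s q') : locRing s q = locRing s q' := by
  obtain ⟨φ, hφ, -⟩ := exists_lev hq'
  obtain ⟨l', hl'⟩ := Function.ne_iff.1 hq'.1
  obtain ⟨l, hl⟩ := Function.ne_iff.1 hq.1
  have h1 : ∀ (d : ℕ) (Q : MvPolynomial (Fin (k + 1)) ℂ), Q.IsHomogeneous d →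
      MvPolynomial.eval q' Q = 0 → MvPolynomial.eval q Q = 0 := fun d Q hQ h0 => by
    by_contra h2
    have h3 := MvPolynomial.isHomogeneous_X_pow (R := ℂ) l' d
    have h4 := div_mul_cancel₀ (MvPolynomial.aeval s (MvPolynomial.X l' ^ d : MvPolynomial _ ℂ))
      (br_ne hq hQ h2)
    have h5 := hφ ⟨_, h (Algebra.subset_adjoin ⟨d, _, Q, h3, hQ, h2, h4⟩)⟩ d _ Q h3 hQ h4
    rw [h0, mul_zero, map_pow, MvPolynomial.eval_X] at h5
    exact pow_ne_zero d hl' h5.symm
  have h2 : q' l ≠ 0 := fun h0 => hl (by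
    simpa using h1 1 (MvPolynomial.X l) (MvPolynomial.isHomogeneous_X ℂ l) (by simpa using h0))
  have h3 : q = fun j => q l / q' l * q' j := funext fun j => by
    have h4 := h1 1 (MvPolynomial.C (q' l) * MvPolynomial.X j - MvPolynomial.C (q' j) * MvPolynomial.X l)
      (((MvPolynomial.isHomogeneous_X ℂ j).C_mul _).sub ((MvPolynomial.isHomogeneous_X ℂ l).C_mul _))
      (by simp [mul_comm])
    simp only [map_sub, map_mul, MvPolynomial.eval_C, MvPolynomial.eval_X] at h4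
    field_simp
    linear_combination h4
  refine le_antisymm h (Algebra.adjoin_mono fun a ⟨d, P, Q, hP, hQ, h4, h5⟩ =>
    ⟨d, P, Q, hP, hQ, ?_, h5⟩)
  have h6 := aeval_smul_hom hQ (q l / q' l) q'
  rw [← h3, MvPolynomial.aeval_eq_eval, MvPolynomial.aeval_eq_eval] at h6
  rw [h6]
  exact mul_ne_zero (pow_ne_zero _ (div_ne_zero hl h2)) h4

end Vale.Agent.P292
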