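import Vale.Agent.P292.Z.Val
import Vale.Agent.P292.Z.Loc

/-! P292 Z/Iso (TASK). `toX`: `p = φ ∘ x` (`exists_aval`, `Nm.val`), `v = p ∘ e0` (`e0_ne`, `Cn.On.on0`). With `R = ∏ j, Q j` (the `Q` of `reg` for `e0 j`), `x (e0 j) * R (μ) = P' j (μ)`, `P' j` forms of one degree with `P' j (w) = R (w) v j`; for `a * B (t) = A (t)`, `ι a * (B ∘ P') (μ) = (A ∘ P') (μ)` since `x (e0 j) = r ^ d * ι (u * t j)`; `loc_map`. `toY`: `v l ≠ 0`; `g i = x₀ i ^ d / (u * t l)`, `ι (g i) = μ i ^ d / x (e0 l)`. For a valuation ring that contains `ι (locRing t v)` take `ρ ^ d = (x (e0 l))⁻¹`: `sc ρ x` is primitive (`pv_iff`, `t_div`), so `ρ μ` is (`Nm.pv`). Hence `g i` is integral (`int_of_val`), in the local ring (`normal`); at a dominating ring (`adom`, `exists_lev`) some `g i` has valuation `1`, so it is a unit; `(x₀ k / x₀ i) ^ d = g k / g i`, `normal` again. `w k` is the value of `x₀ k / x₀ i`;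 end as in `Bir.pt`. `iso`: both maps and `loc_eq`. Helper names start with `zis_`. -/

open Set Matrix

set_option linter.unusedSectionVars false

noncomputable section

namespace Vale.Agent.P292

open Vale.Agent.P271 Vale.Agent.P276

variable {G : Type} [LieRing G] [LieAlgebra ℂ G] {M : ℕ} {b : Module.Basis (Fin (M + 1)) ℂ G}
  {K : Type} [Field K] [Algebra ℂ K] {N n m : ℕ} {t : Fin (N + 1) → K} {S : Cn K N}
  {W : Type} [Field W] [Algebra ℂ W] [IsAlgClosed W] {x : Fin S.M → W} {μ : Fin (M + 1) → W}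
  {w : Fin (M + 1) → ℂ} {ι : K →ₐ[ℂ] W} {r : W} {x₀ : Fin (M + 1) → K}

theorem zis_sub {k : ℕ} {s : Fin (k + 1) → K} {q : Fin (N + 1) → ℂ} (hq : OnX t q) {i : Fin (k + 1)}
    (hi : s i ≠ 0) (hs : ∀ j, s j / s i ∈ locRing t q) :
    ∃ q', OnX s q' ∧ locRing s q' ≤ locRing t q := by
  obtain ⟨φ, -, hφ⟩ := exists_lev hq
  obtain ⟨y, hy⟩ : ∃ y : Fin (k + 1) → locRing t q, ∀ j, (y j : K) = (s i)⁻¹ * s j :=
    ⟨fun j => ⟨_, hs j⟩, fun j => div_eq_inv_mul _ _⟩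
  have hr : ∀ (d : ℕ) (P : MvPolynomial (Fin (k + 1)) ℂ), P.IsHomogeneous d →
      ((MvPolynomial.aeval y P : locRing t q) : K) = (s i)⁻¹ ^ d * MvPolynomial.aeval s P := by
    intro d P hP
    rw [← aeval_smul_hom hP, ← funext hy]
    exact MvPolynomial.comp_aeval_apply y (locRing t q).val P
  have hw : ∀ P : MvPolynomial (Fin (k + 1)) ℂ,
      φ (MvPolynomial.aeval y P) = MvPolynomial.eval (fun j => φ (y j)) P :=
    fun P => MvPolynomial.comp_aeval_apply y φ P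
  refine ⟨fun j => φ (y j), ⟨fun h0 => ?_, fun d P hP h0 => ?_⟩, Algebra.adjoin_le ?_⟩
  · have h1 : y i = 1 := Subtype.ext ((hy i).trans (inv_mul_cancel₀ hi))
    have h2 : φ (y i) = 0 := congrFun h0 i
    rw [h1, map_one] at h2
    exact one_ne_zero h2
  · have h1 : MvPolynomial.aeval y P = 0 := Subtype.ext (by
      rw [hr d P hP, h0, mul_zero]
      rfl)
    rw [← hw, h1, map_zero]
  · rintro z ⟨d, P, Q, hP, hQ, h3, h4⟩
    obtain ⟨h5, h6⟩ := hφ (MvPolynomial.aeval y Q) (by rwa [hw])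
    have h7 : z = (MvPolynomial.aeval y P : locRing t q) *
        ((MvPolynomial.aeval y Q : locRing t q) : K)⁻¹ := by
      rw [eq_mul_inv_iff_mul_eq₀ h5, hr d P hP, hr d Q hQ, ← h4, mul_left_comm]
    rw [h7]
    exact (locRing t q).mul_mem (MvPolynomial.aeval y P).2 h6

theorem zis_mem (hX : Fano t n m) {v : Fin (N + 1) → ℂ} (hv : OnX t v) {a : K}
    (h : ∀ O : ValuationSubring W, (∀ c : locRing t v, ι c ∈ O) → ι a ∈ O) : a ∈ locRing t v := by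
  obtain ⟨P, hP, h0⟩ := int_of_val ((ι : K →+* W).comp (algebraMap (locRing t v) K)) h
  refine normal hX.ff hX.sm hv ⟨P, hP, (ι : K →+* W).injective ?_⟩
  rw [Polynomial.hom_eval₂, map_zero]
  exact h0

theorem zis_e0 (hS : S.Ok t n m) (he : Em S x ι r) (j : Fin (N + 1)) :
    x (S.e0 j) = r ^ (m * (n + 1)) * ι (S.u * t j) := by
  rw [he.eq, hS.we0, hS.ce0]

theorem zis_pv (hS : S.Ok t n m) (h : Nm b S n x μ) (he : Em S x ι r) {v : Fin (N + 1) → ℂ}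
    (hv : OnX t v) {l : Fin (N + 1)} (hl : v l ≠ 0) {ρ : W}
    (hρ : ρ ^ (m * (n + 1)) = (x (S.e0 l))⁻¹) {O : ValuationSubring W}
    (hO : ∀ c : locRing t v, ι c ∈ O) : PV O fun i => ρ * μ i := by
  have h0 : Ov ∅ O := ov_empty fun c => by
    rw [← ι.commutes c]
    exact hO (algebraMap ℂ _ c)
  have h1 : ι (t l) ≠ 0 := (map_ne_zero ι).2 (t_ne hv hl)
  have h2 : ι S.u ≠ 0 := (map_ne_zero ι).2 hS.une
  have h3 : r ^ (m * (n + 1)) ≠ 0 := pow_ne_zero _ he.ne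
  have h4 : ∀ j, (S.sc ρ x ∘ S.e0) j = ι (t j / t l) := fun j => by
    rw [Function.comp_apply, Cn.sc, hS.we0, hρ, zis_e0 hS he, zis_e0 hS he, map_mul, map_mul,
      map_div₀]
    field_simp
  refine h.pv hS h0 ((pv_iff hS h0 (h.gen.2.1.sc ρ)).2 ⟨fun j => ?_, l, ?_⟩)
  · rw [h4]
    exact hO ⟨_, t_div hv hl j⟩
  · rw [h4, div_self (t_ne hv hl), map_one, map_one]

theorem Nm.toX (hS : S.Ok t n m) (h : Nm b S n x μ) (he : Em S x ι r)
    (hx : ∀ i, μ i = r * ι (x₀ i)) (hw : OnX x₀ w) :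
    ∃ v, OnX t v ∧ locRing t v ≤ locRing x₀ w := by
  obtain rfl : μ = fun i => r * ι (x₀ i) := funext hx
  have hw' := (onX_map (ι := ι) he.ne).2 hw
  obtain ⟨φ, h1, h2⟩ := exists_aval (h.aOn hS hw')
  obtain ⟨hon, hne⟩ := h.val hS hw' φ h1 h2
  obtain ⟨l, hl⟩ := Function.ne_iff.1 (e0_ne hS hon hne)
  choose P Q hP hQ h3 h4 using fun j => h.reg w hw.1 (S.e0 j)
  have h5 : MvPolynomial.eval w (P l) ≠ 0 := by
    rw [← h1 ⟨_, h.mem hw'.1 (S.e0 l)⟩ (P l) (Q l) (h4 l)]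
    exact mul_ne_zero hl (h3 l)
  have h6 : x (S.e0 l) ≠ 0 := (h2 _ hl).1
  have h7 : t l ≠ 0 := fun h0 => h6 (by rw [zis_e0 hS he, h0, mul_zero, map_zero, mul_zero])
  refine zis_sub hw h7 fun j => (loc_map (ι := ι) he.ne hw).1 ?_
  simp only [hS.we0] at hP hQ
  refine Algebra.subset_adjoin ⟨_, P j * Q l, P l * Q j, (hP j).mul (hQ l), (hP l).mul (hQ j),
    by rw [map_mul]; exact mul_ne_zero h5 (h3 j), ?_⟩
  have h8 : ι (t l) ≠ 0 := (map_ne_zero ι).2 h7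
  rw [map_mul, map_mul, ← h4 l, ← h4 j, zis_e0 hS he, zis_e0 hS he, map_mul, map_mul, map_div₀]
  field_simp

theorem Nm.toY (hS : S.Ok t n m) (h : Nm b S n x μ) (he : Em S x ι r)
    (hx : ∀ i, μ i = r * ι (x₀ i)) {v : Fin (N + 1) → ℂ} (hv : OnX t v) :
    ∃ w, OnX x₀ w ∧ locRing x₀ w ≤ locRing t v := by
  obtain ⟨l, hl⟩ := Function.ne_iff.1 hv.1
  have hl' : v l ≠ 0 := hl
  have hd : 0 < m * (n + 1) := Nat.mul_pos hS.fano.pos (Nat.succ_pos n)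
  obtain ⟨ρ, hρ⟩ := IsAlgClosed.exists_pow_nat_eq (x (S.e0 l))⁻¹ hd
  have h1 : S.u * t l ≠ 0 := mul_ne_zero hS.une (t_ne hv hl')
  have h2 : ∀ i, ι (x₀ i ^ (m * (n + 1)) / (S.u * t l)) = (ρ * μ i) ^ (m * (n + 1)) := fun i => by
    have h3 : ι (S.u * t l) ≠ 0 := (map_ne_zero ι).2 h1
    have h4 : r ^ (m * (n + 1)) ≠ 0 := pow_ne_zero _ he.ne
    rw [mul_pow, hρ, hx, zis_e0 hS he, map_div₀, map_pow, mul_pow]
    field_simp
  have h3 : ∀ i, x₀ i ^ (m * (n + 1)) / (S.u * t l) ∈ locRing t v := fun i =>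
    zis_mem (ι := ι) hS.fano hv fun O hO => by
      rw [h2]
      exact pow_mem ((zis_pv hS h he hv hl' hρ hO).1 i) _
  obtain ⟨φ, -, hφ⟩ := exists_lev hv
  obtain ⟨O, hO, hO'⟩ := adom (locRing t v) ι φ
  obtain ⟨i, hi⟩ := (zis_pv hS h he hv hl' hρ hO).2
  obtain ⟨h4, h5⟩ := hφ ⟨_, h3 i⟩ fun h0 => by
    have h6 := hO' _ h0
    rw [h2, map_pow, hi, one_pow] at h6
    exact lt_irrefl _ h6
  have h6 : x₀ i ≠ 0 := fun h0 => h4 (by
    change x₀ i ^ _ / _ = 0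
    rw [h0, zero_pow hd.ne', zero_div])
  refine zis_sub hv h6 fun k => normal hS.fano.ff hS.fano.sm hv (IsIntegral.of_pow hd ?_)
  have h7 : (x₀ k / x₀ i) ^ (m * (n + 1)) =
      algebraMap (locRing t v) K ⟨_, (locRing t v).mul_mem (h3 k) h5⟩ := by
    change _ = x₀ k ^ _ / _ * (x₀ i ^ _ / _)⁻¹
    rw [div_pow, inv_div, div_mul_div_cancel₀ h1]
  rw [h7]
  exact isIntegral_algebraMap

theorem Nm.iso (hS : S.Ok t n m) (h : Nm b S n x μ) (he : Em S x ι r)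
    (hx : ∀ i, μ i = r * ι (x₀ i)) :
    {O | ∃ v, OnX t v ∧ O = locRing t v} = {O | ∃ w, OnX x₀ w ∧ O = locRing x₀ w} := by
  refine Set.ext fun O => ⟨?_, ?_⟩
  · rintro ⟨v, hv, rfl⟩
    obtain ⟨w, hw, h1⟩ := h.toY hS he hx hv
    obtain ⟨v', hv', h2⟩ := h.toX hS he hx hw
    exact ⟨w, hw, le_antisymm (loc_eq hv' hv (h2.trans h1) ▸ h2) h1⟩
  · rintro ⟨w, hw, rfl⟩
    obtain ⟨v, hv, h1⟩ := h.toX hS he hx hw
    obtain ⟨w', hw', h2⟩ := h.toY hS he hx hv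
    exact ⟨v, hv, le_antisymm (loc_eq hw' hw (h2.trans h1) ▸ h2) h1⟩

end Vale.Agent.P292
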