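import Vale.Agent.P292.Z.Nm
import Vale.Agent.P292.Z.Iso
import Vale.Agent.P292.Z.Dist

/-! P292 block Z: the moment map is an isomorphism. See `notes/P292.md`. -/

open Polynomial Set Matrix

noncomputable section

namespace Vale.Agent.P292

open Vale.Agent.P271 Vale.Agent.P276

variable {K : Type} [Field K] [Algebra ℂ K] {N n m : ℕ} {t : Fin (N + 1) → K} {S : Cn K N}
  {W : Type} [Field W] [Algebra ℂ W]

theorem adj_of_mom [IsAlgClosed W] (hS : S.Ok t n m) {θ : Derivation ℂ K K →ₗ[K] K}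
    (hθ : S.Link θ) (hW : Big W) {x : Fin S.M → W} {r : ℕ} {f : Fin (r + 1) → W}
    {cc : Fin (r + 1) → Fin (r + 1) → Fin (r + 1) → ℂ} (h : S.Mom n x f cc) : IsAdjoint t θ := by
  obtain ⟨G, _, _, b, μ, h1⟩ := exists_nm hS hW h
  obtain ⟨ι, ρ, he⟩ := exists_em hS h1.gen
  obtain ⟨x₀, hx⟩ := h1.memK hS he
  have := h1.kil
  obtain ⟨e, h2, h3, h4⟩ := h1.mom.orbit
  refine ⟨G, inferInstance, inferInstance, h1.simple, r, b, e, x₀, h2, h3, fun w => ?_,
    h1.iso hS he hx, h1.dist hS hθ he hx⟩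
  rw [← h4, funext hx, onX_map he.ne]

end Vale.Agent.P292
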