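import Vale.Agent.P292.Z.Orb

/-! P292 Z/Aff (TASK). Affine local rings. `aloc_rep`, `exists_aval`: copy `loc_rep` and `exists_lev` (P276 S/Key, U/Bridge) without degrees. `hom_comp`: induction on the total degree or on the number of components; the Euler operator multiplies the component of degree `k` by `k` (`IsHomogeneous.sum_X_mul_pderiv`, `sum_homogeneousComponent`). `aOn_of`: `hom_comp` for the polynomials that vanish at `μ` (chain rule `imm_chain`-like, induction on `P`). `aideal_bot`: `I` lies in the kernel of `φ`; `T = {P | P (μ) ∈ I}` is stable under `dl b a` (`X a (P (μ)) = - (dl b a P) (μ)`, induction on `P`, `aeval_adP`) and under the Euler operator; members vanish at `w`, so on the orbit (`stab`); their components vanish at every point of `OnX μ` (`Mom.reach`, `Mom.isExt`, `aeval_smul_hom`), so at `μ` (`exists_onX`). `adom`: `Plc_dom` or `LocalSubring.exists_le_valuationSubring`. Helper names start with `zaf_`. -/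

open Set Matrix

set_option linter.unusedSectionVars false

noncomputable section

namespace Vale.Agent.P292

open Vale.Agent.P271 Vale.Agent.P276

variable {G : Type} [LieRing G] [LieAlgebra ℂ G] {M : ℕ} {b : Module.Basis (Fin (M + 1)) ℂ G}
  {W : Type} [Field W] [Algebra ℂ W] {σ : Type} {μ : σ → W} {w : σ → ℂ}

theorem aloc_rep {a : W} (ha : a ∈ aLoc μ w) : ∃ P Q : MvPolynomial σ ℂ,
    MvPolynomial.eval w Q ≠ 0 ∧ a * MvPolynomial.aeval μ Q = MvPolynomial.aeval μ P := by
  induction ha using Algebra.adjoin_induction with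
  | mem x hx => exact hx
  | algebraMap r => exact ⟨MvPolynomial.C r, 1, by simp, by simp⟩
  | add x y _ _ hx hy =>
    obtain ⟨P, Q, h3, h4⟩ := hx
    obtain ⟨P', Q', h3', h4'⟩ := hy
    refine ⟨P * Q' + Q * P', Q * Q', by rw [map_mul]; exact mul_ne_zero h3 h3', ?_⟩
    simp only [map_add, map_mul, ← h4, ← h4']
    ring
  | mul x y _ _ hx hy =>
    obtain ⟨P, Q, h3, h4⟩ := hx
    obtain ⟨P', Q', h3', h4'⟩ := hy
    refine ⟨P * P', Q * Q', by rw [map_mul]; exact mul_ne_zero h3 h3', ?_⟩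
    simp only [map_mul, ← h4, ← h4']
    ring

theorem aeval_mem_aLoc (μ : σ → W) (w : σ → ℂ) (P : MvPolynomial σ ℂ) :
    MvPolynomial.aeval μ P ∈ aLoc μ w :=
  Algebra.subset_adjoin ⟨P, 1, by simp, by simp⟩

theorem zaf_ne (h : AOn μ w) {Q : MvPolynomial σ ℂ} (hQ : MvPolynomial.eval w Q ≠ 0) :
    MvPolynomial.aeval μ Q ≠ 0 := fun h0 => hQ (h Q h0)

theorem zaf_inv (h : AOn μ w) {Q : MvPolynomial σ ℂ} (hQ : MvPolynomial.eval w Q ≠ 0) :
    (MvPolynomial.aeval μ Q)⁻¹ ∈ aLoc μ w :=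
  Algebra.subset_adjoin ⟨1, Q, hQ, by rw [inv_mul_cancel₀ (zaf_ne h hQ), map_one]⟩

theorem exists_aval (h : AOn μ w) : ∃ φ : aLoc μ w →ₐ[ℂ] ℂ,
    (∀ (a : aLoc μ w) (P Q : MvPolynomial σ ℂ), a * MvPolynomial.aeval μ Q =
      MvPolynomial.aeval μ P → φ a * MvPolynomial.eval w Q = MvPolynomial.eval w P) ∧
    ∀ a, φ a ≠ 0 → (a : W) ≠ 0 ∧ (a : W)⁻¹ ∈ aLoc μ w := by
  choose P Q h3 h4 using fun a : aLoc μ w => aloc_rep a.2
  have key : ∀ (a : aLoc μ w) (P' Q' : MvPolynomial σ ℂ),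
      a * MvPolynomial.aeval μ Q' = MvPolynomial.aeval μ P' →
      MvPolynomial.eval w (P a) / MvPolynomial.eval w (Q a) * MvPolynomial.eval w Q' =
        MvPolynomial.eval w P' := by
    intro a P' Q' k3
    have k4 := h (P a * Q' - Q a * P') (by
      rw [map_sub, map_mul, map_mul, ← h4, ← k3]
      ring)
    rw [map_sub, map_mul, map_mul, sub_eq_zero] at k4
    rw [div_mul_eq_mul_div, k4, mul_div_cancel_left₀ _ (h3 a)]
  have hm : ∀ a b : aLoc μ w,
      MvPolynomial.eval w (P (a * b)) / MvPolynomial.eval w (Q (a * b)) =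
      MvPolynomial.eval w (P a) / MvPolynomial.eval w (Q a) *
        (MvPolynomial.eval w (P b) / MvPolynomial.eval w (Q b)) := by
    intro a b
    have k := key (a * b) (P a * P b) (Q a * Q b) (by
      rw [map_mul, map_mul, ← h4, ← h4, Subalgebra.coe_mul]
      ring)
    rw [map_mul, map_mul] at k
    rw [div_mul_div_comm, eq_div_iff (mul_ne_zero (h3 a) (h3 b)), k]
  have ha : ∀ a b : aLoc μ w,
      MvPolynomial.eval w (P (a + b)) / MvPolynomial.eval w (Q (a + b)) =
      MvPolynomial.eval w (P a) / MvPolynomial.eval w (Q a) +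
        MvPolynomial.eval w (P b) / MvPolynomial.eval w (Q b) := by
    intro a b
    have k := key (a + b) (P a * Q b + Q a * P b) (Q a * Q b) (by
      rw [map_add, map_mul, map_mul, map_mul, ← h4, ← h4, Subalgebra.coe_add]
      ring)
    rw [map_add, map_mul, map_mul, map_mul] at k
    rw [div_add_div _ _ (h3 a) (h3 b), eq_div_iff (mul_ne_zero (h3 a) (h3 b)), k]
  have hc : ∀ c : ℂ, MvPolynomial.eval w (P (algebraMap ℂ _ c)) /
      MvPolynomial.eval w (Q (algebraMap ℂ _ c)) = c := by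
    intro c
    have k := key (algebraMap ℂ _ c) (MvPolynomial.C c) 1 (by simp)
    simpa using k
  refine ⟨⟨⟨⟨⟨fun a => MvPolynomial.eval w (P a) / MvPolynomial.eval w (Q a),
    by simpa using hc 1⟩, hm⟩, by simpa using hc 0, ha⟩, hc⟩, key, fun a h' => ?_⟩
  have h5 : MvPolynomial.eval w (P a) ≠ 0 := fun h0 => h' (by
    change MvPolynomial.eval w (P a) / MvPolynomial.eval w (Q a) = 0
    rw [h0, zero_div])
  have h6 := zaf_ne h h5
  have h7 : (a : W) ≠ 0 := fun h0 => h6 (by rw [← h4, h0, zero_mul])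
  refine ⟨h7, Algebra.subset_adjoin ⟨Q a, P a, h5, ?_⟩⟩
  rw [← h4, inv_mul_cancel_left₀ h7]

theorem zaf_der {D : Derivation ℂ W W} (hD : ∀ i, D (μ i) ∈ aLoc μ w) (P : MvPolynomial σ ℂ) :
    D (MvPolynomial.aeval μ P) ∈ aLoc μ w := by
  induction P using MvPolynomial.induction_on with
  | C a => simp
  | add P Q h1 h2 =>
    rw [map_add, map_add]
    exact add_mem h1 h2
  | mul_X P i h1 =>
    have h2 := aeval_mem_aLoc μ w (MvPolynomial.X i)
    rw [MvPolynomial.aeval_X] at h2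
    rw [map_mul, MvPolynomial.aeval_X, D.leibniz, smul_eq_mul, smul_eq_mul]
    exact add_mem (mul_mem (aeval_mem_aLoc μ w P) (hD i)) (mul_mem h2 h1)

theorem aLoc_reg (h : AOn μ w) {D : Derivation ℂ W W} (hD : ∀ i, D (μ i) ∈ aLoc μ w) :
    IsReg (aLoc μ w) D := by
  intro a ha
  obtain ⟨P, Q, h3, h4⟩ := aloc_rep ha
  have h5 := congrArg D h4
  rw [D.leibniz, smul_eq_mul, smul_eq_mul] at h5
  have h6 : D a = (D (MvPolynomial.aeval μ P) - a * D (MvPolynomial.aeval μ Q)) *
      (MvPolynomial.aeval μ Q)⁻¹ := by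
    rw [← h5, add_sub_cancel_left, mul_comm, inv_mul_cancel_left₀ (zaf_ne h h3)]
  rw [h6]
  exact mul_mem (sub_mem (zaf_der hD P) (mul_mem ha (zaf_der hD Q))) (zaf_inv h h3)

theorem zaf_cl (μ : σ → W) (P : MvPolynomial σ ℂ) : MvPolynomial.aeval μ P ∈ cl (range μ) := by
  induction P using MvPolynomial.induction_on with
  | C a =>
    rw [MvPolynomial.aeval_C]
    exact IntermediateField.algebraMap_mem _ a
  | add P Q h1 h2 =>
    rw [map_add]
    exact add_mem h1 h2
  | mul_X P i h1 =>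
    rw [map_mul, MvPolynomial.aeval_X]
    exact mul_mem h1 (subset_cl _ ⟨i, rfl⟩)

theorem aLoc_cl (h : AOn μ w) : (aLoc μ w : Set W) ⊆ cl (range μ) := by
  intro a ha
  obtain ⟨P, Q, h3, h4⟩ := aloc_rep ha
  rw [(eq_div_iff (zaf_ne h h3)).2 h4]
  exact div_mem (zaf_cl μ P) (zaf_cl μ Q)

theorem zaf_fam [Fintype σ] (T : Submodule ℂ (MvPolynomial σ ℂ))
    (hT : ∀ P ∈ T, ∑ i, MvPolynomial.X i * MvPolynomial.pderiv i P ∈ T) (s : Finset ℕ) :
    ∀ q : ℕ → MvPolynomial σ ℂ, (∀ k, (q k).IsHomogeneous k) → ∑ k ∈ s, q k ∈ T →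
      ∀ k ∈ s, q k ∈ T := by
  induction s using Finset.induction_on with
  | empty => simp
  | insert a s ha ih =>
    intro q hq hs
    have e : ∑ i, MvPolynomial.X i * MvPolynomial.pderiv i (∑ k ∈ insert a s, q k) =
        ∑ k ∈ insert a s, (k : ℂ) • q k := by
      simp only [map_sum, Finset.mul_sum]
      rw [Finset.sum_comm]
      refine Finset.sum_congr rfl fun k _ => ?_
      rw [(hq k).sum_X_mul_pderiv, Nat.cast_smul_eq_nsmul]
    have h1 := T.sub_mem (e ▸ hT _ hs) (T.smul_mem (a : ℂ) hs)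
    rw [Finset.smul_sum, ← Finset.sum_sub_distrib, Finset.sum_insert ha, sub_self, zero_add] at h1
    simp only [← sub_smul] at h1
    have h2 := ih (fun k => ((k : ℂ) - a) • q k)
      (fun k => (MvPolynomial.homogeneousSubmodule σ ℂ k).smul_mem _ (hq k)) h1
    have h3 : ∀ k ∈ s, q k ∈ T := fun k hk => by
      have h4 : (k : ℂ) - a ≠ 0 := sub_ne_zero.2 fun h5 => ha (Nat.cast_injective h5 ▸ hk)
      exact (T.smul_mem_iff h4).1 (h2 k hk)
    intro k hk
    rcases Finset.mem_insert.1 hk with rfl | hk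
    · rw [Finset.sum_insert ha] at hs
      exact (T.add_mem_iff_left (T.sum_mem h3)).1 hs
    · exact h3 k hk

theorem hom_comp [Fintype σ] (T : Submodule ℂ (MvPolynomial σ ℂ))
    (hT : ∀ P ∈ T, ∑ i, MvPolynomial.X i * MvPolynomial.pderiv i P ∈ T) {P : MvPolynomial σ ℂ}
    (hP : P ∈ T) (k : ℕ) : MvPolynomial.homogeneousComponent k P ∈ T := by
  by_cases hk : P.totalDegree < k
  · rw [MvPolynomial.homogeneousComponent_eq_zero k P hk]
    exact T.zero_mem
  · refine zaf_fam T hT (Finset.range (P.totalDegree + 1))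
      (fun k => MvPolynomial.homogeneousComponent k P)
      (fun k => MvPolynomial.homogeneousComponent_isHomogeneous k P) ?_ k
      (Finset.mem_range.2 (by omega))
    rw [MvPolynomial.sum_homogeneousComponent]
    exact hP

/-- A valuation ring that dominates a local ring. -/
theorem adom {F : Type} [Field F] [Algebra ℂ F] (A : Subalgebra ℂ F) (f : F →ₐ[ℂ] W)
    (φ : A →ₐ[ℂ] ℂ) : ∃ O : ValuationSubring W, (∀ a : A, f a ∈ O) ∧
      ∀ a : A, φ a = 0 → O.valuation (f a) < 1 := by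
  let g : A →+* W := (f : F →+* W).comp A.val
  have hg : Function.Injective g := (f : F →+* W).injective.comp Subtype.val_injective
  have hp := RingHom.ker_isPrime (φ : A →+* ℂ)
  have hs := g.rangeRestrict_surjective
  have hk : RingHom.ker g.rangeRestrict ≤ RingHom.ker (φ : A →+* ℂ) := fun x hx => by
    have h1 : g x = g 0 := (congrArg Subtype.val (RingHom.mem_ker.1 hx)).trans (map_zero g).symm
    rw [hg h1]
    exact zero_mem _
  have := Ideal.map_isPrime_of_surjective hs hk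
  obtain ⟨O, hO⟩ := Plc_dom g.range ((RingHom.ker (φ : A →+* ℂ)).map g.rangeRestrict)
  exact ⟨O, fun x => (hO (g.rangeRestrict x)).1, fun x hx =>
    (hO (g.rangeRestrict x)).2.2 (Ideal.mem_map_of_mem _ hx)⟩

theorem zaf_euler [Fintype σ] {E : Derivation ℂ W W} (hE : ∀ i, E (μ i) = μ i)
    (P : MvPolynomial σ ℂ) :
    MvPolynomial.aeval μ (∑ i, MvPolynomial.X i * MvPolynomial.pderiv i P) =
      E (MvPolynomial.aeval μ P) := by
  classical
  induction P using MvPolynomial.induction_on with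
  | C a => simp
  | add P Q h1 h2 =>
    simp only [map_add, mul_add, Finset.sum_add_distrib] at h1 h2 ⊢
    rw [h1, h2]
  | mul_X P i h1 =>
    have e : ∑ j, MvPolynomial.X j * MvPolynomial.pderiv j (P * MvPolynomial.X i) =
        P * MvPolynomial.X i +
          MvPolynomial.X i * ∑ j, MvPolynomial.X j * MvPolynomial.pderiv j P := by
      have e1 := (MvPolynomial.isHomogeneous_X ℂ i).sum_X_mul_pderiv
      rw [one_smul] at e1
      conv_rhs => rw [← e1]
      rw [e1, Finset.mul_sum]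
      nth_rw 2 [← e1]
      rw [Finset.mul_sum, ← Finset.sum_add_distrib]
      refine Finset.sum_congr rfl fun j _ => ?_
      rw [Derivation.leibniz, smul_eq_mul, smul_eq_mul]
      ring
    rw [e, map_add, map_mul, map_mul, h1, MvPolynomial.aeval_X, E.leibniz, hE, smul_eq_mul,
      smul_eq_mul]

theorem aOn_of {μ : Fin (M + 1) → W} {w : Fin (M + 1) → ℂ} {E : Derivation ℂ W W}
    (hE : ∀ i, E (μ i) = μ i) (hw : OnX μ w) : AOn μ w := by
  intro P hP
  have h1 := hom_comp (LinearMap.ker (MvPolynomial.aeval μ :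
      MvPolynomial (Fin (M + 1)) ℂ →ₐ[ℂ] W).toLinearMap) (fun Q hQ => by
    rw [LinearMap.mem_ker, AlgHom.toLinearMap_apply] at hQ ⊢
    rw [zaf_euler hE, hQ, map_zero]) (P := P) hP
  rw [← MvPolynomial.sum_homogeneousComponent P, map_sum]
  exact Finset.sum_eq_zero fun k _ =>
    hw.2 k _ (MvPolynomial.homogeneousComponent_isHomogeneous k P) (h1 k)

theorem zaf_dl {X : G → Derivation ℂ W W} {μ : Fin (M + 1) → W} (h : Mom b X (fun _ => 0) μ)
    (a : G) (P : MvPolynomial (Fin (M + 1)) ℂ) :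
    MvPolynomial.aeval μ (-dl b a P) = X a (MvPolynomial.aeval μ P) := by
  induction P using MvPolynomial.induction_on with
  | C c =>
    rw [MvPolynomial.aeval_C, Derivation.map_algebraMap, MvPolynomial.derivation_C, neg_zero,
      map_zero]
  | add P Q h1 h2 => rw [map_add, neg_add, map_add, h1, h2, map_add, map_add]
  | mul_X P i h1 =>
    have e : dl b a (MvPolynomial.X i) = adP b a i := MvPolynomial.mkDerivation_X _ _ _
    rw [(dl b a).leibniz, e, map_mul (MvPolynomial.aeval μ), (X a).leibniz, ← h1,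
      MvPolynomial.aeval_X, h.der]
    simp only [smul_eq_mul, map_neg, map_add, map_mul, aeval_adP, MvPolynomial.aeval_X]
    ring

theorem Mom.aideal_bot [LieAlgebra.IsKilling ℂ G] {X : G → Derivation ℂ W W} {μ : Fin (M + 1) → W}
    {w : Fin (M + 1) → ℂ} (h : Mom b X (fun _ => 0) μ) {E : Derivation ℂ W W}
    (hE : ∀ i, E (μ i) = μ i) (hw : OnX μ w) {I : Ideal (aLoc μ w)} (hI : I ≠ ⊤)
    (h1 : ∀ a, ∀ s ∈ I, ∀ s' : aLoc μ w, (s' : W) = X a s → s' ∈ I)
    (h2 : ∀ s ∈ I, ∀ s' : aLoc μ w, (s' : W) = E s → s' ∈ I) : I = ⊥ := by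
  have hA := aOn_of hE hw
  obtain ⟨φ, f1, f2⟩ := exists_aval hA
  have h0 : ∀ s ∈ I, φ s = 0 := fun s hs => by
    by_contra h3
    obtain ⟨h4, h5⟩ := f2 s h3
    exact hI (Ideal.eq_top_of_isUnit_mem I hs
      (IsUnit.of_mul_eq_one ⟨_, h5⟩ (Subtype.ext (mul_inv_cancel₀ h4))))
  let ψ : MvPolynomial (Fin (M + 1)) ℂ →ₐ[ℂ] aLoc μ w :=
    (MvPolynomial.aeval μ).codRestrict _ (aeval_mem_aLoc μ w)
  have hψ : ∀ P, (ψ P : W) = MvPolynomial.aeval μ P := fun _ => rfl
  let T : Submodule ℂ (MvPolynomial (Fin (M + 1)) ℂ) :=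
    (I.restrictScalars ℂ).comap ψ.toLinearMap
  have hT : ∀ P, P ∈ T ↔ ψ P ∈ I := fun _ => Iff.rfl
  have t1 : ∀ a, ∀ P ∈ T, dl b a P ∈ T := fun a P hP =>
    T.neg_mem_iff.1 ((hT _).2 (h1 a _ ((hT _).1 hP) _ (zaf_dl h a P)))
  have t2 : ∀ P ∈ T, ∑ i, MvPolynomial.X i * MvPolynomial.pderiv i P ∈ T := fun P hP =>
    (hT _).2 (h2 _ ((hT _).1 hP) _ (zaf_euler hE P))
  have t3 : ∀ P ∈ T, MvPolynomial.eval (b.equivFun (b.equivFun.symm w)) P = 0 := fun P hP => by
    rw [LinearEquiv.apply_symm_apply, ← f1 (ψ P) P 1 (by rw [map_one, mul_one, hψ]),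
      h0 _ ((hT _).1 hP), zero_mul]
  have he : b.equivFun.symm w ≠ 0 := fun h3 => hw.1 (b.equivFun.symm.map_eq_zero_iff.1 h3)
  have t4 : ∀ P ∈ T, MvPolynomial.aeval μ P = 0 := fun P hP => by
    rw [← MvPolynomial.sum_homogeneousComponent P, map_sum]
    refine Finset.sum_eq_zero fun k _ => ?_
    by_contra h3
    have hk := MvPolynomial.homogeneousComponent_isHomogeneous k P
    obtain ⟨w', k1, k2⟩ := exists_onX h.ne hk h3
    obtain ⟨c, y, -, k4, k5⟩ := h.reach he (h.isExt hw) k1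
    have k6 : w' = fun i => c * b.equivFun y i := by
      rw [← b.equivFun.apply_symm_apply w', k5, map_smul]
      rfl
    have k7 := stab T t1 t3 k4 _ (hom_comp T t2 hP k)
    have k8 := aeval_smul_hom (R := ℂ) hk c (b.equivFun y)
    rw [MvPolynomial.aeval_eq_eval, MvPolynomial.aeval_eq_eval, k7, mul_zero] at k8
    exact k2 (k6 ▸ k8)
  refine (Submodule.eq_bot_iff I).2 fun s hs => ?_
  obtain ⟨P, Q, k1, k2⟩ := aloc_rep s.2
  have k3 : ψ P = s * ψ Q := Subtype.ext k2.symm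
  have k4 := t4 P ((hT _).2 (k3 ▸ I.mul_mem_right _ hs))
  rw [k4] at k2
  exact Subtype.ext ((mul_eq_zero.1 k2).resolve_right (zaf_ne hA k1))

end Vale.Agent.P292
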