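import Vale.Agent.P292.Z.Lie
import Vale.Agent.P292.B.Main
import Vale.Agent.P292.A.Main

/-! P292 Z/Alg (TASK). `exists_g`: `exists_lie`; skew symmetry from `pb_om`, `om_anti`, `vec_tan` and `li`; Jacobi from `pb_jac`, `br`, `li` (`pb` is `ℂ`-linear in the second slot, a derivation). `mom_pb`: bilinearity (`vec_lin` with constants, `dv_eq` or `pb_om`, `om_left`, `om_right`). `mom_mom`: `der`: pair with `b i` (`killK_nondeg`, `killK_der`, `killK_inv`, `brK_skew`, `mom_pb`); `ext`: `Ex0.dual` for `η ∘ μ` (`killK_map`, `killK_sum`), apply `η.symm` (`brK_map`). `mom_const`: with `⁅μ, ⁅μ, z⁆⁆ = (c₁ * κ (μ, z)) • μ`, apply `X a` (`brK_der`, `Mom.der`, `brK_jac`): `X a c₁ = 0`; `c₁ ∈ cl (range x)`; any derivation agrees on `cl (range x)` with a combination of the `X (b i)` (`span`, `Cn.On.der`, `dv_spec`, `der_kill`); `der_const`; `c₁ = η.symm (2 / c)`. Helper names start with `zal_`. -/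

open Set Matrix

set_option linter.unusedSectionVars false

noncomputable section

namespace Vale.Agent.P292

open Vale.Agent.P271 Vale.Agent.P276

variable {G : Type} [LieRing G] [LieAlgebra ℂ G] {M : ℕ} {b : Module.Basis (Fin (M + 1)) ℂ G}
  {K : Type} [Field K] [Algebra ℂ K] {N n m : ℕ} {t : Fin (N + 1) → K} {S : Cn K N}
  {W : Type} [Field W] [Algebra ℂ W] [IsAlgClosed W] {x : Fin S.M → W} {μ : Fin (M + 1) → W}
  {w : Fin (M + 1) → ℂ} {ι : K →ₐ[ℂ] W} {r : W} {x₀ : Fin (M + 1) → K}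
  {f : Fin (M + 1) → W} {cc : Fin (M + 1) → Fin (M + 1) → Fin (M + 1) → ℂ}

theorem brK_lc (hb : ∀ i j k, b.repr ⁅b i, b j⁆ k = cc i j k) (y z : Fin (M + 1) → W) :
    brK b y z = lc cc y z := by
  funext k
  simp only [brK, lc, hb, Algebra.smul_def, mul_comm]

theorem zal_anti (hS : S.Ok t n m) (hx : S.GenO n ∅ x) {g g' : W} (hg : g ∈ cl (∅ ∪ range x))
    (hg' : g' ∈ cl (∅ ∪ range x)) : S.pb ∅ x g' g = -S.pb ∅ x g g' := by
  rw [(pb_om hS hx hg hg').1, (pb_om hS hx hg' hg).1]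
  exact om_anti hS hx.2.1 hx.ne (vec_tan hS hx hg).1 (vec_tan hS hx hg').1

theorem zal_right (g : W) (c : Fin (M + 1) → ℂ) :
    S.pb ∅ x g (∑ i, c i • f i) = ∑ i, c i • S.pb ∅ x g (f i) := by
  simp only [Cn.pb, map_sum, Derivation.map_smul]

theorem zal_br (h : S.Mom n x f cc) (i j : Fin (M + 1)) :
    S.pb ∅ x (f i) (f j) = ∑ k, cc i j k • f k := by
  simp only [h.br, Algebra.smul_def]

theorem zal_dot (f : Fin (M + 1) → W) (a : G) : f ⬝ᵥ co b W a = ∑ i, b.repr a i • f i := by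
  simp only [dotProduct, co, Algebra.smul_def, mul_comm]

theorem zal_mem (h : S.Mom n x f cc) (c : Fin (M + 1) → ℂ) :
    ∑ i, c i • f i ∈ cl (∅ ∪ range x) :=
  sum_mem fun i _ => IntermediateField.smul_mem _ (h.wt i).1

theorem exists_g (hS : S.Ok t n m) (h : S.Mom n x f cc) : ∃ (G : Type) (_ : LieRing G)
    (_ : LieAlgebra ℂ G) (b : Module.Basis (Fin (M + 1)) ℂ G),
      ∀ i j k, b.repr ⁅b i, b j⁆ k = cc i j k := by
  have li := Fintype.linearIndependent_iff.1 h.li
  refine exists_lie cc (fun i j k => eq_neg_of_add_eq_zero_left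
    (li (fun k => cc j i k + cc i j k) ?_ k)) fun i j k => li _ ?_
  · simp only [add_smul, Finset.sum_add_distrib, ← zal_br h]
    rw [zal_anti hS h.gen (h.wt i).1 (h.wt j).1, neg_add_cancel]
  · have e : ∀ i j k, S.pb ∅ x (f i) (S.pb ∅ x (f j) (f k)) =
        ∑ q, (∑ l, cc j k l * cc i l q) • f q := fun i j k => by
      rw [zal_br h j k, zal_right]
      simp only [zal_br h, Finset.smul_sum, smul_smul, Finset.sum_smul]
      exact Finset.sum_comm
    have := pb_jac hS h.gen (h.wt i).1 (h.wt j).1 (h.wt k).1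
    simpa only [e, Finset.sum_add_distrib, add_smul] using this

theorem mom_pb (hS : S.Ok t n m) (h : S.Mom n x f cc) (hb : ∀ i j k, b.repr ⁅b i, b j⁆ k = cc i j k)
    (a a' : G) : S.pb ∅ x (f ⬝ᵥ co b W a) (f ⬝ᵥ co b W a') = f ⬝ᵥ co b W ⁅a, a'⁆ := by
  have e : ∀ j, S.pb ∅ x (∑ i, b.repr a i • f i) (f j) =
      ∑ i, b.repr a i • ∑ k, cc i j k • f k := fun j => by
    rw [zal_anti hS h.gen (h.wt j).1 (zal_mem h _), zal_right, ← Finset.sum_neg_distrib]
    refine Finset.sum_congr rfl fun i _ => ?_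
    rw [zal_anti hS h.gen (h.wt i).1 (h.wt j).1, smul_neg, neg_neg, zal_br h]
  rw [zal_dot, zal_dot, zal_right, co_lie, brK_lc hb]
  simp only [e]
  simp only [dotProduct, lc, co, Finset.mul_sum, Algebra.smul_def]
  rw [Finset.sum_comm]
  refine Eq.trans (Finset.sum_congr rfl fun i _ => Finset.sum_comm) (Finset.sum_comm.trans ?_)
  exact Finset.sum_congr rfl fun k _ => Finset.sum_congr rfl fun i _ =>
    Finset.sum_congr rfl fun j _ => by ring

theorem zal_char (W : Type) [Field W] [Algebra ℂ W] : CharZero W :=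
  charZero_of_injective_algebraMap (algebraMap ℂ W).injective

theorem zal_zero (y : Fin (M + 1) → W) : killK b y 0 = 0 ∧ brK b y 0 = 0 :=
  ⟨by simp [killK], funext fun i => by simp [brK]⟩

theorem zal_co (D : Derivation ℂ W W) (a : G) : (fun j => D (co b W a j)) = 0 :=
  funext fun _ => D.map_algebraMap _

theorem zal_neg (y z : Fin (M + 1) → W) : killK b (-y) z = -killK b y z := by
  rw [killK_symm, ← neg_one_smul W y, killK_smul_right, killK_symm, neg_one_mul]

theorem zal_ext {a : Fin (M + 1) → W} {η : W ≃ₐ[ℂ] W} (ha : Ex0 b a fun i => η (f i))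
    (hμ : ∀ z, killK b μ z = f ⬝ᵥ z) : ∃ c : W, c ≠ 0 ∧ (∀ i, a i = c * η (μ i)) ∧
      ∀ z, brK b μ (brK b μ z) = (η.symm (2 / c) * killK b μ z) • μ := by
  have e : ∀ z, (fun i => η (f i)) ⬝ᵥ (fun i => η (z i)) = η (killK b μ z) := fun z => by
    simp only [hμ, dotProduct, map_sum, map_mul]
  obtain ⟨c, hc, rfl⟩ := ha.dual (ν := fun i => η (μ i)) fun w => by
    obtain ⟨z, rfl⟩ : ∃ z : Fin (M + 1) → W, w = fun i => η (z i) :=
      ⟨fun i => η.symm (w i), by simp⟩
    rw [e]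
    exact (killK_map (η : W →ₐ[ℂ] W) μ z).symm
  refine ⟨c, hc, fun i => rfl, fun z => funext fun i => η.injective ?_⟩
  have h1 := congrFun (ha.ext fun i => η (z i)) i
  have h2 : (fun j => η (brK b μ z j)) = brK b (fun i => η (μ i)) fun i => η (z i) :=
    funext fun j => brK_map (η : W →ₐ[ℂ] W) μ z j
  have h3 : η (brK b μ (brK b μ z) i) = brK b (fun i => η (μ i)) (fun j => η (brK b μ z j)) i :=
    brK_map (η : W →ₐ[ℂ] W) μ _ i
  rw [brK_smul_left, brK_smul_left, brK_smul_right, e] at h1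
  simp only [Pi.smul_apply, smul_eq_mul] at h1
  rw [h3, h2, Pi.smul_apply, smul_eq_mul, map_mul, map_mul, η.apply_symm_apply]
  refine mul_left_cancel₀ (mul_ne_zero hc hc) ?_
  rw [mul_assoc, h1]
  field_simp

theorem mom_mom (hS : S.Ok t n m) (h : S.Mom n x f cc) (hb : ∀ i j k, b.repr ⁅b i, b j⁆ k = cc i j k)
    {a : Fin (M + 1) → W} {η : W ≃ₐ[ℂ] W} (ha : Ex0 b a fun i => η (f i))
    (hμ : ∀ z, killK b μ z = f ⬝ᵥ z) :
    Mom b (fun a => S.dv ∅ x (S.vec ∅ x (killK b μ (co b W a)))) (fun _ => 0) μ := by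
  have := ha.killing
  have := zal_char W
  obtain ⟨c, hc, -, h1⟩ := zal_ext ha hμ
  refine ⟨fun e => h.li.ne_zero 0 ?_, fun y i => ?_, ⟨_, ?_, h1⟩, fun y hy => ?_⟩
  · have := hμ (Pi.single 0 1)
    rwa [e, killK_symm, (zal_zero _).1, dotProduct_single, mul_one, eq_comm] at this
  · rw [zero_mul, zero_sub, ← add_eq_zero_iff_eq_neg]
    refine congrFun (killK_nondeg (b := b) (x := (fun i => S.dv ∅ x (S.vec ∅ x
      (killK b μ (co b W y))) (μ i)) + brK b (co b W y) μ) fun j => ?_) i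
    have a1 := killK_der (b := b) (S.dv ∅ x (S.vec ∅ x (killK b μ (co b W y)))) μ (co b W (b j))
    have a2 := mom_pb hS h hb y (b j)
    rw [zal_co, (zal_zero _).1, add_zero] at a1
    rw [← hμ, ← hμ, ← hμ, Cn.pb, a1, co_lie] at a2
    rw [killK_symm, killK_add_right, killK_symm, a2, killK_symm (co b W (b j)), brK_skew _ μ,
      zal_neg, killK_inv, add_neg_cancel]
  · exact (map_ne_zero η.symm).2 (div_ne_zero two_ne_zero hc)
  · rw [hμ, zal_dot] at hy
    exact b.ext_elem fun i => by simpa using Fintype.linearIndependent_iff.1 h.li _ hy i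

theorem zal_der [LieAlgebra.IsKilling ℂ G] {D : Derivation ℂ W W} {A : Fin (M + 1) → W} {c : W}
    (h0 : μ ≠ 0) (hD : (fun i => D (μ i)) = -brK b A μ)
    (h1 : ∀ z, brK b μ (brK b μ z) = (c * killK b μ z) • μ) : D c = 0 := by
  obtain ⟨i, hi⟩ := Function.ne_iff.1 h0
  obtain ⟨j, hj⟩ := not_forall.1 fun k => h0 (killK_nondeg (b := b) k)
  have n1 : ∀ y z : Fin (M + 1) → W, brK b (-y) z = -brK b y z := fun y z => by
    rw [← neg_one_smul W y, brK_smul_left, neg_one_smul]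
  have n2 : ∀ y z : Fin (M + 1) → W, brK b y (-z) = -brK b y z := fun y z => by
    rw [← neg_one_smul W z, brK_smul_right, neg_one_smul]
  have a1 : (fun k => D (brK b μ (co b W (b j)) k)) = -brK b (brK b A μ) (co b W (b j)) := by
    funext k
    rw [brK_der, zal_co, (zal_zero _).2, hD, n1, Pi.zero_apply, add_zero]
  have a2 := congrArg D (congrFun (h1 (co b W (b j))) i)
  have a3 := congrFun (brK_jac (b := b) A μ (brK b μ (co b W (b j)))) i
  rw [brK_jac A μ (co b W (b j)), brK_add_right, h1, h1, brK_smul_right] at a3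
  rw [brK_der, hD, a1, n1, n2, Pi.smul_apply, smul_eq_mul, Derivation.leibniz, Derivation.leibniz,
    killK_der, zal_co, (zal_zero _).1, hD, ← brK_skew μ A, killK_inv, congrFun hD i] at a2
  simp only [Pi.add_apply, Pi.smul_apply, Pi.neg_apply, smul_eq_mul] at a2 a3
  refine (mul_eq_zero.1 ?_).resolve_left (mul_ne_zero hi hj)
  linear_combination a3 - a2

theorem mom_const (hS : S.Ok t n m) (h : S.Mom n x f cc)
    (hb : ∀ i j k, b.repr ⁅b i, b j⁆ k = cc i j k) {a : Fin (M + 1) → W} {η : W ≃ₐ[ℂ] W}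
    (ha : Ex0 b a fun i => η (f i)) (hμ : ∀ z, killK b μ z = f ⬝ᵥ z) :
    ∃ c : ℂ, c ≠ 0 ∧ ∀ i, a i = algebraMap ℂ W c * η (μ i) := by
  have := ha.killing
  have := zal_char W
  have hm := mom_mom hS h hb ha hμ
  obtain ⟨c, hc, h0, h1⟩ := zal_ext ha hμ
  have m1 : ∀ y, killK b μ (co b W y) ∈ cl (∅ ∪ range x) := fun y => by
    rw [hμ, zal_dot]
    exact zal_mem h _
  have m2 : ∀ i, μ i ∈ cl (∅ ∪ range x) := fun i => by
    obtain ⟨y, hy⟩ := killK_coord (b := b) (R := W) i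
    exact hy μ ▸ m1 y
  have m3 : ∀ z : Fin (M + 1) → W, (∀ i, z i ∈ cl (∅ ∪ range x)) →
      ∀ i, brK b μ z i ∈ cl (∅ ∪ range x) := fun z hz i =>
    sum_mem fun j _ => sum_mem fun k _ => IntermediateField.smul_mem _ (mul_mem (m2 j) (hz k))
  have m4 : η.symm (2 / c) ∈ cl (∅ ∪ range x) := by
    obtain ⟨i, hi⟩ := Function.ne_iff.1 hm.ne
    obtain ⟨j, hj⟩ := not_forall.1 fun k => hm.ne (killK_nondeg (b := b) k)
    have a1 := m3 _ (m3 (co b W (b j)) fun _ => IntermediateField.algebraMap_mem _ _) i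
    rw [h1, Pi.smul_apply, smul_eq_mul, mul_assoc] at a1
    rw [← mul_div_cancel_right₀ (η.symm (2 / c)) (mul_ne_zero hj hi)]
    exact div_mem a1 (mul_mem (m1 _) (m2 i))
  have e1 : ∀ i, killK b μ (co b W (b i)) = f i := fun i => by
    rw [hμ, co_basis, dotProduct_single, mul_one]
  obtain ⟨c', hc'⟩ := der_const (c := η.symm (2 / c)) fun D => by
    obtain ⟨s, hs⟩ := (Submodule.mem_span_range_iff_exists_fun W).1 (h.span _ (h.gen.2.1.der D))
    have k1 : ∀ y, (D - ∑ i, s i • S.dv ∅ x (S.vec ∅ x (f i))) y =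
        D y - ∑ i, s i * S.dv ∅ x (S.vec ∅ x (f i)) y := fun y => by
      rw [Derivation.sub_apply, ← Derivation.coeFnAddMonoidHom_apply (∑ i, _), map_sum,
        Finset.sum_apply]
      rfl
    have k2 := der_kill (D := D - ∑ i, s i • S.dv ∅ x (S.vec ∅ x (f i))) (A := ∅ ∪ range x) (by
      rintro _ (k | ⟨j, rfl⟩)
      · exact k.elim
      · rw [k1, ← congrFun hs j, Finset.sum_apply, sub_eq_zero]
        exact Finset.sum_congr rfl fun i _ =>
          congrArg _ ((dv_spec hS h.gen (vec_tan hS h.gen (h.wt i).1).1).2 j).symm) _ m4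
    rw [k1, sub_eq_zero] at k2
    rw [k2]
    refine Finset.sum_eq_zero fun i _ => mul_eq_zero_of_right _ ?_
    rw [← e1]
    exact zal_der (A := co b W (b i)) hm.ne (funext fun k => (hm.der (b i) k).trans (by simp)) h1
  rw [AlgEquiv.symm_apply_eq, AlgEquiv.commutes] at hc'
  have c0 : c' ≠ 0 := fun e => div_ne_zero two_ne_zero hc (by rw [hc', e, map_zero])
  refine ⟨2 / c', div_ne_zero two_ne_zero c0, fun i => ?_⟩
  rw [h0, map_div₀, ← hc', map_ofNat]
  field_simp

end Vale.Agent.P292
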