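import Vale.Agent.P292.Z.Defs

/-! P292 Z/Br (TASK). Calculus of `brK`, `killK`, `co`. Unfold the double sums (`Finset.sum_comm`, `b.sum_repr`), or send `x` to `∑ i, x i ⊗ₜ b i` in the base change `R ⊗[ℂ] G`. `killK_surj`, `killK_nondeg`: the Gram matrix of the Killing form in the basis `b` is invertible over `ℂ` (`killingForm_nondegenerate`, `LinearMap.BilinForm.nondegenerate_iff_det_ne_zero`/`toMatrix`). Helper names start with `zbr_`. -/

set_option linter.unusedSectionVars false

noncomputable section

namespace Vale.Agent.P292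

open Vale.Agent.P271 Vale.Agent.P276

variable {G : Type} [LieRing G] [LieAlgebra ℂ G] {M : ℕ} {b : Module.Basis (Fin (M + 1)) ℂ G}
  {R R' : Type} [Field R] [Algebra ℂ R] [Field R'] [Algebra ℂ R'] {x y z : Fin (M + 1) → R}

theorem zbr_basis (b : Module.Basis (Fin (M + 1)) ℂ G) (i : Fin (M + 1)) :
    co b R (b i) = Pi.single i 1 := by
  funext j
  by_cases h : j = i
  · subst h
    simp [co]
  · simp [co, h]

theorem zbr_add (b : Module.Basis (Fin (M + 1)) ℂ G) (a a' : G) :
    co b R (a + a') = co b R a + co b R a' := by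
  funext i
  simp [co]

theorem zbr_sum (b : Module.Basis (Fin (M + 1)) ℂ G) (z : Fin (M + 1) → R) :
    z = ∑ i, z i • co b R (b i) := by
  funext j
  simp [zbr_basis, Finset.sum_apply, Pi.single_apply]

theorem zbr_ind (b : Module.Basis (Fin (M + 1)) ℂ G) {P : (Fin (M + 1) → R) → Prop}
    (co : ∀ a : G, P (co b R a)) (add : ∀ u v, P u → P v → P (u + v))
    (smul : ∀ (c : R) u, P u → P (c • u)) (x : Fin (M + 1) → R) : P x := by
  rw [zbr_sum b x]
  refine Finset.sum_induction _ P add ?_ fun i _ => smul _ _ (co _)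
  simpa using smul 0 _ (co 0)

theorem zbr_ind3 (b : Module.Basis (Fin (M + 1)) ℂ G)
    {P : (Fin (M + 1) → R) → (Fin (M + 1) → R) → (Fin (M + 1) → R) → Prop}
    (h : ∀ a a' a'' : G, P (co b R a) (co b R a') (co b R a''))
    (a1 : ∀ u v y z, P u y z → P v y z → P (u + v) y z)
    (s1 : ∀ (c : R) u y z, P u y z → P (c • u) y z)
    (a2 : ∀ u v y z, P y u z → P y v z → P y (u + v) z)
    (s2 : ∀ (c : R) u y z, P y u z → P y (c • u) z)
    (a3 : ∀ u v y z, P y z u → P y z v → P y z (u + v))
    (s3 : ∀ (c : R) u y z, P y z u → P y z (c • u)) (x y z : Fin (M + 1) → R) : P x y z :=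
  zbr_ind b (P := fun x => P x y z) (fun a => zbr_ind b (P := fun y => P (co b R a) y z)
    (fun a' => zbr_ind b (P := fun z => P (co b R a) (co b R a') z) (h a a')
      (fun u v => a3 u v _ _) (fun c u => s3 c u _ _) z)
    (fun u v => a2 u v _ _) (fun c u => s2 c u _ _) y)
    (fun u v => a1 u v _ _) (fun c u => s1 c u _ _) x

theorem zbr_lie (b : Module.Basis (Fin (M + 1)) ℂ G) (a a' : G) :
    co b R ⁅a, a'⁆ = brK b (co b R a) (co b R a') := by
  funext i
  have h : ⁅a, a'⁆ = ∑ j, ∑ k, (b.repr a j * b.repr a' k) • ⁅b j, b k⁆ := by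
    conv_lhs => rw [← b.sum_repr a, ← b.sum_repr a', sum_lie]
    refine Finset.sum_congr rfl fun j _ => ?_
    rw [lie_sum]
    refine Finset.sum_congr rfl fun k _ => ?_
    rw [smul_lie, lie_smul, smul_smul]
  rw [h]
  simp only [co, brK, map_sum, map_smul, Finsupp.finsetSum_apply, Finsupp.smul_apply, smul_eq_mul,
    map_mul, Algebra.smul_def]
  refine Finset.sum_congr rfl fun j _ => Finset.sum_congr rfl fun k _ => mul_comm _ _

theorem zbr_kill (b : Module.Basis (Fin (M + 1)) ℂ G) (a a' : G) :
    killK b (co b R a) (co b R a') = algebraMap ℂ R (killingForm ℂ G a a') := by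
  have h : killingForm ℂ G a a' =
      ∑ j, ∑ k, (b.repr a j * b.repr a' k) * killingForm ℂ G (b j) (b k) := by
    conv_lhs => rw [← b.sum_repr a, ← b.sum_repr a']
    simp only [map_sum, map_smul, LinearMap.sum_apply, LinearMap.smul_apply, smul_eq_mul,
      Finset.mul_sum]
    rw [Finset.sum_comm]
    refine Finset.sum_congr rfl fun j _ => Finset.sum_congr rfl fun k _ => ?_
    ring
  rw [h]
  simp only [co, killK, map_sum, map_mul, Algebra.smul_def]
  refine Finset.sum_congr rfl fun j _ => Finset.sum_congr rfl fun k _ => mul_comm _ _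

theorem brK_add_left (x y z : Fin (M + 1) → R) : brK b (x + y) z = brK b x z + brK b y z := by
  funext i
  simp only [brK, Pi.add_apply, add_mul, smul_add, Finset.sum_add_distrib]

theorem brK_add_right (x y z : Fin (M + 1) → R) : brK b x (y + z) = brK b x y + brK b x z := by
  funext i
  simp only [brK, Pi.add_apply, mul_add, smul_add, Finset.sum_add_distrib]

theorem brK_smul_left (c : R) (x y : Fin (M + 1) → R) : brK b (c • x) y = c • brK b x y := by
  funext i
  simp only [brK, Pi.smul_apply, smul_eq_mul, Finset.mul_sum, mul_smul_comm, mul_assoc]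

theorem brK_smul_right (c : R) (x y : Fin (M + 1) → R) : brK b x (c • y) = c • brK b x y := by
  funext i
  simp only [brK, Pi.smul_apply, smul_eq_mul, Finset.mul_sum, mul_smul_comm, mul_left_comm]

theorem brK_skew (x y : Fin (M + 1) → R) : brK b x y = -brK b y x := by
  funext i
  simp only [brK, Pi.neg_apply]
  rw [Finset.sum_comm, ← Finset.sum_neg_distrib]
  refine Finset.sum_congr rfl fun j _ => ?_
  rw [← Finset.sum_neg_distrib]
  refine Finset.sum_congr rfl fun k _ => ?_
  rw [← lie_skew (b k) (b j), map_neg, Finsupp.neg_apply, neg_smul, mul_comm]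

theorem brK_self (x : Fin (M + 1) → R) : brK b x x = 0 := by
  have : CharZero R := charZero_of_injective_algebraMap (algebraMap ℂ R).injective
  funext i
  have h := congrFun (brK_skew (b := b) x x) i
  rw [Pi.neg_apply, eq_neg_iff_add_eq_zero, add_self_eq_zero] at h
  exact h

theorem brK_jac (x y z : Fin (M + 1) → R) :
    brK b x (brK b y z) = brK b (brK b x y) z + brK b y (brK b x z) := by
  refine zbr_ind3 b (P := fun x y z => brK b x (brK b y z) = brK b (brK b x y) z + brK b y (brK b x z))
    (fun a a' a'' => by simp only [← zbr_lie, ← zbr_add, ← leibniz_lie]) ?_ ?_ ?_ ?_ ?_ ?_ x y z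
  all_goals
    intros
    simp only [brK_add_left, brK_add_right, brK_smul_left, brK_smul_right, smul_add, *]
    try abel

theorem brK_sum_left (z x : Fin (M + 1) → R) :
    brK b z x = ∑ i, z i • brK b (co b R (b i)) x := by
  let f : (Fin (M + 1) → R) →ₗ[R] (Fin (M + 1) → R) :=
    ⟨⟨fun z => brK b z x, fun u v => brK_add_left u v x⟩, fun c u => brK_smul_left c u x⟩
  have h : f z = f (∑ i, z i • co b R (b i)) := congrArg f (zbr_sum b z)
  rw [map_sum] at h
  simp only [map_smul] at h
  exact h

theorem brK_sum_right (x z : Fin (M + 1) → R) :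
    brK b x z = ∑ i, z i • brK b x (co b R (b i)) := by
  let f : (Fin (M + 1) → R) →ₗ[R] (Fin (M + 1) → R) :=
    ⟨⟨fun z => brK b x z, fun u v => brK_add_right x u v⟩, fun c u => brK_smul_right c x u⟩
  have h : f z = f (∑ i, z i • co b R (b i)) := congrArg f (zbr_sum b z)
  rw [map_sum] at h
  simp only [map_smul] at h
  exact h

theorem killK_add_right (x y z : Fin (M + 1) → R) :
    killK b x (y + z) = killK b x y + killK b x z := by
  simp only [killK, Pi.add_apply, mul_add, smul_add, Finset.sum_add_distrib]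

theorem killK_smul_right (c : R) (x y : Fin (M + 1) → R) : killK b x (c • y) = c * killK b x y := by
  simp only [killK, Pi.smul_apply, smul_eq_mul, Finset.mul_sum, mul_smul_comm, mul_left_comm]

theorem killK_symm (x y : Fin (M + 1) → R) : killK b x y = killK b y x := by
  simp only [killK]
  rw [Finset.sum_comm]
  refine Finset.sum_congr rfl fun j _ => Finset.sum_congr rfl fun k _ => ?_
  rw [mul_comm, LieModule.traceForm_comm]

theorem zbr_kadd (x y z : Fin (M + 1) → R) : killK b (x + y) z = killK b x z + killK b y z := by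
  rw [killK_symm, killK_add_right, killK_symm z, killK_symm z]

theorem zbr_ksmul (c : R) (x y : Fin (M + 1) → R) : killK b (c • x) y = c * killK b x y := by
  rw [killK_symm, killK_smul_right, killK_symm y]

/-- The Killing form as a linear map in the second variable. -/
def zbrK (b : Module.Basis (Fin (M + 1)) ℂ G) (x : Fin (M + 1) → R) : (Fin (M + 1) → R) →ₗ[R] R :=
  ⟨⟨fun z => killK b x z, fun u v => killK_add_right x u v⟩, fun c u => killK_smul_right c x u⟩

theorem killK_inv (x y z : Fin (M + 1) → R) : killK b (brK b x y) z = killK b x (brK b y z) := by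
  refine zbr_ind3 b (P := fun x y z => killK b (brK b x y) z = killK b x (brK b y z))
    (fun a a' a'' => by simp only [← zbr_lie, zbr_kill, LieModule.traceForm_apply_lie_apply])
    ?_ ?_ ?_ ?_ ?_ ?_ x y z
  all_goals
    intros
    simp only [brK_add_left, brK_add_right, brK_smul_left, brK_smul_right, zbr_kadd, zbr_ksmul,
      killK_add_right, killK_smul_right, *]

theorem killK_sum (x z : Fin (M + 1) → R) : killK b x z = ∑ i, z i * killK b x (co b R (b i)) := by
  have h : zbrK b x z = zbrK b x (∑ i, z i • co b R (b i)) := congrArg (zbrK b x) (zbr_sum b z)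
  rw [map_sum] at h
  simp only [map_smul, smul_eq_mul] at h
  exact h

theorem co_basis (i : Fin (M + 1)) : co b R (b i) = Pi.single i 1 := zbr_basis b i

theorem co_add (a a' : G) : co b R (a + a') = co b R a + co b R a' := zbr_add b a a'

theorem co_smul (c : ℂ) (a : G) : co b R (c • a) = algebraMap ℂ R c • co b R a := by
  funext i
  simp [co]

theorem co_lie (a a' : G) : co b R ⁅a, a'⁆ = brK b (co b R a) (co b R a') := zbr_lie b a a'

theorem co_kill (a a' : G) :
    killK b (co b R a) (co b R a') = algebraMap ℂ R (killingForm ℂ G a a') := zbr_kill b a a'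

theorem co_self (a : G) : co b ℂ a = b.equivFun a := by
  funext i
  simp [co]

theorem co_symm (w : Fin (M + 1) → ℂ) :
    co b R (b.equivFun.symm w) = fun i => algebraMap ℂ R (w i) := by
  funext i
  rw [co, ← b.equivFun_apply, LinearEquiv.apply_symm_apply]

theorem brK_map (f : R →ₐ[ℂ] R') (z x : Fin (M + 1) → R) (i : Fin (M + 1)) :
    f (brK b z x i) = brK b (fun j => f (z j)) (fun j => f (x j)) i := by
  simp only [brK, map_sum, map_smul, map_mul]

theorem killK_map (f : R →ₐ[ℂ] R') (x z : Fin (M + 1) → R) :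
    f (killK b x z) = killK b (fun j => f (x j)) fun j => f (z j) := by
  simp only [killK, map_sum, map_smul, map_mul]

theorem brK_der (D : Derivation ℂ R R) (z x : Fin (M + 1) → R) (i : Fin (M + 1)) :
    D (brK b z x i) = brK b (fun j => D (z j)) x i + brK b z (fun j => D (x j)) i := by
  simp only [brK, map_sum, Derivation.map_smul, Derivation.leibniz, smul_eq_mul,
    ← Finset.sum_add_distrib, ← smul_add]
  refine Finset.sum_congr rfl fun j _ => Finset.sum_congr rfl fun k _ => ?_
  rw [add_comm (z j * _), mul_comm (x k)]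

theorem killK_der (D : Derivation ℂ R R) (x z : Fin (M + 1) → R) :
    D (killK b x z) = killK b (fun j => D (x j)) z + killK b x fun j => D (z j) := by
  simp only [killK, map_sum, Derivation.map_smul, Derivation.leibniz, smul_eq_mul,
    ← Finset.sum_add_distrib, ← smul_add]
  refine Finset.sum_congr rfl fun j _ => Finset.sum_congr rfl fun k _ => ?_
  rw [add_comm (x j * _), mul_comm (z k)]

theorem aeval_adP (a : G) (x : Fin (M + 1) → R) (i : Fin (M + 1)) :
    MvPolynomial.aeval x (adP b a i) = brK b (co b R a) x i := by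
  rw [brK_sum_right, adP, map_sum, Finset.sum_apply]
  refine Finset.sum_congr rfl fun k _ => ?_
  rw [map_mul, MvPolynomial.aeval_C, MvPolynomial.aeval_X, ← co_lie, Pi.smul_apply, smul_eq_mul,
    mul_comm, co]

theorem adP_hom (a : G) (i : Fin (M + 1)) : (adP b a i).IsHomogeneous 1 :=
  MvPolynomial.IsHomogeneous.sum _ _ _ fun k _ => (MvPolynomial.isHomogeneous_X ℂ k).C_mul _

/-- The linear form `x ↦ κ (x, a)`. -/
theorem exists_kform (a : G) : ∃ P : MvPolynomial (Fin (M + 1)) ℂ, P.IsHomogeneous 1 ∧
    ∀ (R : Type) [Field R] [Algebra ℂ R] (x : Fin (M + 1) → R),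
      MvPolynomial.aeval x P = killK b x (co b R a) := by
  refine ⟨∑ k, MvPolynomial.C (killingForm ℂ G a (b k)) * MvPolynomial.X k,
    MvPolynomial.IsHomogeneous.sum _ _ _ fun k _ => (MvPolynomial.isHomogeneous_X ℂ k).C_mul _,
    fun R _ _ x => ?_⟩
  rw [killK_symm, killK_sum, map_sum]
  refine Finset.sum_congr rfl fun k _ => ?_
  rw [map_mul, MvPolynomial.aeval_C, MvPolynomial.aeval_X, co_kill, mul_comm]

theorem zbr_dual [LieAlgebra.IsKilling ℂ G] (b : Module.Basis (Fin (M + 1)) ℂ G) :
    ∃ d : Fin (M + 1) → G, ∀ i j, killingForm ℂ G (d i) (b j) = if j = i then 1 else 0 := by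
  have : Module.Finite ℂ G := Module.Finite.of_basis b
  exact ⟨(killingForm ℂ G).dualBasis (LieAlgebra.IsKilling.killingForm_nondegenerate ℂ G) b,
    fun i j => LinearMap.BilinForm.apply_dualBasis_left _ b i j⟩

theorem zbr_coord {d : Fin (M + 1) → G}
    (hd : ∀ i j, killingForm ℂ G (d i) (b j) = if j = i then 1 else 0) (x : Fin (M + 1) → R)
    (i : Fin (M + 1)) : x i = killK b x (co b R (d i)) := by
  rw [killK_symm, killK_sum]
  simp [co_kill, hd, apply_ite (algebraMap ℂ R)]

theorem killK_nondeg [LieAlgebra.IsKilling ℂ G] (h : ∀ i, killK b x (co b R (b i)) = 0) : x = 0 := by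
  obtain ⟨d, hd⟩ := zbr_dual b
  funext i
  rw [zbr_coord hd x i, killK_sum]
  simp [h]

theorem killK_surj [LieAlgebra.IsKilling ℂ G] (f : Fin (M + 1) → R) :
    ∃ x, ∀ i, killK b x (co b R (b i)) = f i := by
  obtain ⟨d, hd⟩ := zbr_dual b
  refine ⟨∑ j, f j • co b R (d j), fun i => ?_⟩
  rw [killK_symm]
  show zbrK b (co b R (b i)) (∑ j, f j • co b R (d j)) = f i
  rw [map_sum, Finset.sum_eq_single i]
  · rw [map_smul]
    show f i • killK b _ _ = _
    rw [killK_symm, co_kill, hd, if_pos rfl, map_one, smul_eq_mul, mul_one]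
  · intro j _ hj
    rw [map_smul]
    show f j • killK b _ _ = _
    rw [killK_symm, co_kill, hd, if_neg hj.symm, map_zero, smul_zero]
  · intro h
    exact absurd (Finset.mem_univ i) h

/-- The coordinates are complex combinations of the values of the Killing form. -/
theorem killK_coord [LieAlgebra.IsKilling ℂ G] (i : Fin (M + 1)) :
    ∃ a : G, ∀ x : Fin (M + 1) → R, x i = killK b x (co b R a) := by
  obtain ⟨d, hd⟩ := zbr_dual b
  exact ⟨d i, fun x => zbr_coord hd x i⟩

end Vale.Agent.P292
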