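import Vale.Agent.P292.Z.Orb
import Vale.Agent.P292.B.Main
import Vale.Agent.P292.Fix
import Vale.Agent.P276.E.Fix

/-! P292 Z/Conj (TASK). `conj`: write `h a = killK b μ (co a)`; `s a` from `gal`, unique by `mom.inj`, so linear and injective, so bijective. Bracket: `h ⁅a, a'⁆ = X a (h a')` (`Mom.der`, `killK_der`, `killK_inv`), `dv_map`, `vec_map` (`σ '' ∅ = ∅`, `σ ∘ x = x`). Finite order: `h (b i)` is algebraic over `adjoin ℂ (range x)`, `σ` permutes the roots of its polynomial (`fix_aeval`); an injective self map of a finite set has a periodic point (`Function.IsPeriodicPt`, `Finite.exists_ne_map_eq_of_infinite` for `k ↦ σ^[k] (h (b i))`); take the product of the periods. `fix_pt`: `exists_fix`, `onX_ext`; `c ≠ 0` by injectivity; `L i = ∑ j, C (b.repr (s.symm (b j)) i) * X j`; pair with `b k`: `κ (σ μ, a) = σ (h a) = h (s a)` (`killK_map`, `killingForm_of_equiv_apply`, `killK_nondeg`). Helper names start with `zcj_`. -/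

open Set Matrix

set_option linter.unusedSectionVars false

noncomputable section

namespace Vale.Agent.P292

open Vale.Agent.P271 Vale.Agent.P276

variable {G : Type} [LieRing G] [LieAlgebra ℂ G] {M : ℕ} {b : Module.Basis (Fin (M + 1)) ℂ G}
  {K : Type} [Field K] [Algebra ℂ K] {N n m : ℕ} {t : Fin (N + 1) → K} {S : Cn K N}
  {W : Type} [Field W] [Algebra ℂ W] [IsAlgClosed W] {x : Fin S.M → W} {μ : Fin (M + 1) → W}
  {w : Fin (M + 1) → ℂ} {ι : K →ₐ[ℂ] W} {r : W} {x₀ : Fin (M + 1) → K}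

/-- The Killing form as a linear form in the second argument. -/
def zcj_lin (b : Module.Basis (Fin (M + 1)) ℂ G) (z : Fin (M + 1) → W) :
    (Fin (M + 1) → W) →ₗ[W] W where
  toFun y := killK b z y
  map_add' y y' := killK_add_right z y y'
  map_smul' c y := killK_smul_right c z y

/-- The Hamiltonian of a vector of the Lie algebra. -/
def zcj_H (b : Module.Basis (Fin (M + 1)) ℂ G) (μ : Fin (M + 1) → W) : G →ₗ[ℂ] W where
  toFun a := killK b μ (co b W a)
  map_add' a a' := by rw [co_add, killK_add_right]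
  map_smul' c a := by
    rw [co_smul, killK_smul_right, RingHom.id_apply, Algebra.smul_def]

theorem zcj_H_apply (a : G) : zcj_H b μ a = killK b μ (co b W a) := rfl

theorem zcj_inj (h : Nm b S n x μ) : Function.Injective (zcj_H b μ) :=
  (injective_iff_map_eq_zero _).2 fun a ha => h.mom.inj a ha

theorem zcj_mem (h : Nm b S n x μ) (a : G) : zcj_H b μ a ∈ cl (∅ ∪ range x) := by
  rw [zcj_H_apply, killK]
  refine sum_mem fun j _ => sum_mem fun k _ => ?_
  rw [Algebra.smul_def]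
  exact mul_mem (algebraMap_mem _ _) (mul_mem (h.wt j).1 (algebraMap_mem _ _))

theorem zcj_br (h : Nm b S n x μ) (a a' : G) :
    zcj_H b μ ⁅a, a'⁆ = S.dv ∅ x (S.vec ∅ x (zcj_H b μ a)) (zcj_H b μ a') := by
  have h1 : (fun j => S.dv ∅ x (S.vec ∅ x (zcj_H b μ a)) (μ j)) = brK b μ (co b W a) := by
    funext j
    have h2 := h.mom.der a j
    rw [zero_mul, zero_sub] at h2
    rw [brK_skew μ (co b W a), Pi.neg_apply]
    exact h2
  have h3 : (fun j => S.dv ∅ x (S.vec ∅ x (zcj_H b μ a)) (co b W a' j)) = 0 := by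
    funext j
    exact Derivation.map_algebraMap _ _
  have h4 : killK b μ (0 : Fin (M + 1) → W) = 0 := map_zero (zcj_lin b μ)
  rw [zcj_H_apply a', killK_der, h1, h3, h4, add_zero, killK_inv, ← co_lie, zcj_H_apply]

theorem zcj_map (hS : S.Ok t n m) (h : Nm b S n x μ) {σ : W ≃ₐ[ℂ] W} (hσ : Fx (range x) σ)
    {f g : W} (hf : f ∈ cl (∅ ∪ range x)) (hg : g ∈ cl (∅ ∪ range x)) :
    σ (S.dv ∅ x (S.vec ∅ x f) g) = S.dv ∅ x (S.vec ∅ x (σ f)) (σ g) := by
  have hx : (fun i => σ (x i)) = x := funext fun i => hσ _ (mem_range_self i)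
  have h1 := dv_map hS h.gen σ (vec_tan hS h.gen hf).1 hg
  have h2 : (fun i => σ (S.vec ∅ x f i)) = S.vec ∅ x (σ f) := by
    funext i
    have h3 := vec_map hS h.gen σ hf i
    rw [image_empty, hx] at h3
    exact h3.symm
  rw [image_empty, hx, h2] at h1
  exact h1.symm

theorem zcj_per {A : Set W} {σ : W ≃ₐ[ℂ] W} (hσ : Fx A σ) {y : W} (hy : y ∈ cl A) :
    ∃ k : ℕ, 0 < k ∧ Function.IsPeriodicPt σ k y := by
  have hy' : IsAlgebraic (IntermediateField.adjoin ℂ A) y := mem_algebraicClosure_iff.1 hy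
  obtain ⟨p, hp0, hp⟩ := hy'
  have hk : ∀ k : ℕ, σ^[k] y ∈ p.rootSet W := by
    intro k
    rw [Polynomial.mem_rootSet]
    refine ⟨hp0, ?_⟩
    induction k with
    | zero => exact hp
    | succ k ih => rw [Function.iterate_succ_apply', ← fix_aeval hσ, ih, map_zero]
  have hfin : (p.rootSet W).Finite := Polynomial.rootSet_finite p W
  have key : ∀ i j : ℕ, i < j → σ^[i] y = σ^[j] y →
      ∃ k : ℕ, 0 < k ∧ Function.IsPeriodicPt σ k y := by
    intro i j hij he
    obtain ⟨d, rfl⟩ := Nat.exists_eq_add_of_lt hij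
    refine ⟨d + 1, Nat.succ_pos d, ?_⟩
    rw [add_assoc, Function.iterate_add_apply] at he
    exact (σ.injective.iterate i he).symm
  by_contra hn
  refine Set.infinite_of_injective_forall_mem (f := fun k : ℕ => σ^[k] y) (fun i j hij => ?_) hk
    hfin
  rcases lt_trichotomy i j with h1 | h1 | h1
  · exact absurd (key i j h1 hij) hn
  · exact h1
  · exact absurd (key j i h1 hij.symm) hn

theorem zcj_ord (h : Nm b S n x μ) {σ : W ≃ₐ[ℂ] W} (hσ : Fx (range x) σ) :
    ∃ k : ℕ, 0 < k ∧ ∀ a, σ^[k] (zcj_H b μ a) = zcj_H b μ a := by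
  have hσ' : Fx (∅ ∪ range x) σ := by rwa [empty_union]
  choose k hk hper using fun i => zcj_per hσ' (zcj_mem h (b i))
  refine ⟨∏ i, k i, Finset.prod_pos fun i _ => hk i, fun a => ?_⟩
  have h1 : (σ ^ ∏ i, k i).toLinearMap ∘ₗ zcj_H b μ = zcj_H b μ := by
    refine b.ext fun i => ?_
    have h2 := (hper i).trans_dvd (Finset.dvd_prod_of_mem k (Finset.mem_univ i))
    rw [LinearMap.comp_apply, AlgEquiv.toLinearMap_apply, AlgEquiv.coe_pow]
    exact h2
  have h3 := LinearMap.congr_fun h1 a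
  rw [LinearMap.comp_apply, AlgEquiv.toLinearMap_apply, AlgEquiv.coe_pow] at h3
  exact h3

theorem Nm.conj (hS : S.Ok t n m) (h : Nm b S n x μ) {σ : W ≃ₐ[ℂ] W} (hσ : Fx (range x) σ) :
    ∃ s : G ≃ₗ⁅ℂ⁆ G, (∀ a, killK b μ (co b W (s a)) = σ (killK b μ (co b W a))) ∧
      ∃ k : ℕ, 0 < k ∧ ∀ a, s^[k] a = a := by
  have : Module.Finite ℂ G := Module.Finite.of_basis b
  have hi := zcj_inj h
  choose s0 hs0 using h.gal σ hσ
  have hs : ∀ a, zcj_H b μ (s0 a) = σ (zcj_H b μ a) := hs0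
  let s1 : G →ₗ⁅ℂ⁆ G :=
    { toFun := s0
      map_add' := fun a a' => hi (by rw [map_add, hs, hs, hs, map_add, map_add])
      map_smul' := fun c a => hi (by
        rw [RingHom.id_apply, map_smul, hs, hs, map_smul, map_smul])
      map_lie' := fun {a a'} => hi (by
        show zcj_H b μ (s0 ⁅a, a'⁆) = zcj_H b μ ⁅s0 a, s0 a'⁆
        rw [hs, zcj_br h, zcj_br h, hs, hs, zcj_map hS h hσ (zcj_mem h a) (zcj_mem h a')]) }
  have hinj : Function.Injective s1 := fun a a' haa => by
    have h1 : zcj_H b μ (s0 a) = zcj_H b μ (s0 a') := congrArg _ haa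
    rw [hs, hs] at h1
    exact hi (σ.injective h1)
  have hsurj : Function.Surjective s1 :=
    (LinearMap.injective_iff_surjective (f := (s1 : G →ₗ[ℂ] G))).1 hinj
  refine ⟨LieEquiv.ofBijective s1 ⟨hinj, hsurj⟩, hs0, ?_⟩
  obtain ⟨k, hk, hper⟩ := zcj_ord h hσ
  refine ⟨k, hk, fun a => hi ?_⟩
  have h2 : ∀ (j : ℕ) (a : G), zcj_H b μ (s0^[j] a) = σ^[j] (zcj_H b μ a) := by
    intro j a
    induction j with
    | zero => rfl
    | succ j ih => rw [Function.iterate_succ_apply', Function.iterate_succ_apply', hs, ih]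
  exact (h2 k a).trans (hper a)

theorem zcj_sig [LieAlgebra.IsKilling ℂ G] {σ : W ≃ₐ[ℂ] W} {s : G ≃ₗ⁅ℂ⁆ G}
    (hs : ∀ a, killK b μ (co b W (s a)) = σ (killK b μ (co b W a))) :
    (fun i => σ (μ i)) = ∑ j, μ j • co b W (s.symm (b j)) := by
  rw [← sub_eq_zero]
  refine killK_nondeg (b := b) fun i => ?_
  have h1 : killK b (fun j => σ (μ j)) (co b W (b i)) = killK b μ (co b W (s (b i))) := by
    have h2 := killK_map (b := b) (σ : W →ₐ[ℂ] W) μ (co b W (b i))
    have h3 : (fun j => (σ : W →ₐ[ℂ] W) (co b W (b i) j)) = co b W (b i) :=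
      funext fun j => AlgHom.commutes _ _
    rw [h3] at h2
    rw [hs]
    exact h2.symm
  have h4 : zcj_lin b (co b W (b i)) (∑ j, μ j • co b W (s.symm (b j))) =
      killK b μ (co b W (s (b i))) := by
    rw [map_sum, killK_symm, killK_sum]
    refine Finset.sum_congr rfl fun j _ => ?_
    rw [map_smul, smul_eq_mul]
    show μ j * killK b (co b W (b i)) (co b W (s.symm (b j))) = _
    rw [co_kill, co_kill, ← LieAlgebra.killingForm_of_equiv_apply s (b i), s.apply_symm_apply]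
  rw [killK_symm]
  show zcj_lin b (co b W (b i)) _ = 0
  rw [map_sub, h4, ← h1, killK_symm]
  exact sub_self _

theorem Nm.fix_pt (hS : S.Ok t n m) (h : Nm b S n x μ) {σ : W ≃ₐ[ℂ] W} (hσ : Fx (range x) σ) :
    ∃ (w : Fin (M + 1) → ℂ) (c : ℂ) (L : Fin (M + 1) → MvPolynomial (Fin (M + 1)) ℂ),
      OnX μ w ∧ c ≠ 0 ∧ (∀ i, σ (μ i) = MvPolynomial.aeval μ (L i)) ∧
        ∀ i, MvPolynomial.eval w (L i) = c * w i := by
  have : Module.Finite ℂ G := Module.Finite.of_basis b
  have := h.kil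
  have := h.simple
  obtain ⟨s, hs, k, hk, hper⟩ := h.conj hS hσ
  obtain ⟨e, c, he, hc, hext⟩ := exists_fix (s : G →ₗ⁅ℂ⁆ G) hk hper
  have hc' : s e = c • e := hc
  have hc0 : c ≠ 0 := by
    rintro rfl
    rw [zero_smul, ← map_zero s] at hc'
    exact he (s.injective hc')
  have hsy : s.symm e = c⁻¹ • e := by
    apply s.injective
    show s (s.symm e) = s (c⁻¹ • e)
    rw [s.apply_symm_apply, map_smul, hc', smul_smul, inv_mul_cancel₀ hc0, one_smul]
  refine ⟨b.equivFun e, c⁻¹,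
    fun i => ∑ j, MvPolynomial.C (b.repr (s.symm (b j)) i) * MvPolynomial.X j,
    h.mom.onX_ext he hext, inv_ne_zero hc0, fun i => ?_, fun i => ?_⟩
  · have h1 := congrFun (zcj_sig hs) i
    rw [h1, Finset.sum_apply, map_sum]
    refine Finset.sum_congr rfl fun j _ => ?_
    rw [map_mul, MvPolynomial.aeval_C, MvPolynomial.aeval_X, Pi.smul_apply, smul_eq_mul, mul_comm]
    rfl
  · have h1 : s.symm e = ∑ j, b.repr e j • s.symm (b j) := by
      conv_lhs => rw [← b.sum_repr e]
      rw [map_sum]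
      exact Finset.sum_congr rfl fun j _ => map_smul _ _ _
    have h2 : b.repr (s.symm e) i = c⁻¹ * b.repr e i := by
      rw [hsy, map_smul, Finsupp.smul_apply, smul_eq_mul]
    rw [b.equivFun_apply, ← h2, h1, map_sum, map_sum, Finsupp.finsetSum_apply]
    refine Finset.sum_congr rfl fun j _ => ?_
    rw [map_mul, MvPolynomial.eval_C, MvPolynomial.eval_X, map_smul, Finsupp.smul_apply,
      smul_eq_mul, mul_comm]

end Vale.Agent.P292
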