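import Vale.Agent.P292.Defs
import Vale.Agent.P276.U.Bridge
import Vale.Agent.P276.E.DerA

/-! P292 block Z (from the Lie algebra of Hamiltonians to the adjoint variety): definitions, no task
here. Overview in `notes/P292Z.md`. -/

open Set Matrix

noncomputable section

namespace Vale.Agent.P292

open Vale.Agent.P271 Vale.Agent.P276

variable {G : Type} [LieRing G] [LieAlgebra ℂ G] {M : ℕ} (b : Module.Basis (Fin (M + 1)) ℂ G)

/-- The coordinates of a vector of the Lie algebra in a larger field. -/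
def co (R : Type) [Field R] [Algebra ℂ R] (a : G) : Fin (M + 1) → R :=
  fun i => algebraMap ℂ R (b.repr a i)

/-- The coordinates of the bracket with `a` as linear forms. -/
def adP (a : G) (i : Fin (M + 1)) : MvPolynomial (Fin (M + 1)) ℂ :=
  ∑ k, MvPolynomial.C (b.repr ⁅a, b k⁆ i) * MvPolynomial.X k

/-- The action of `a` on polynomial functions. -/
def dl (a : G) : Derivation ℂ (MvPolynomial (Fin (M + 1)) ℂ) (MvPolynomial (Fin (M + 1)) ℂ) :=
  MvPolynomial.mkDerivation ℂ (adP b a)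

/-- An extremal element. -/
def IsExt (e : G) : Prop := ∀ a : G, ∃ c : ℂ, ⁅e, ⁅e, a⁆⁆ = c • e

variable {Ω : Type} [Field Ω] [Algebra ℂ Ω]

/-- The moment map `x` of an action by derivations. -/
structure Mom (X : G → Derivation ℂ Ω Ω) (lam : G → Ω) (x : Fin (M + 1) → Ω) : Prop where
  ne : x ≠ 0
  der : ∀ a i, X a (x i) = lam a * x i - brK b (co b Ω a) x i
  ext : ∃ c : Ω, c ≠ 0 ∧ ∀ z, brK b x (brK b x z) = (c * killK b x z) • x
  inj : ∀ a, killK b x (co b Ω a) = 0 → a = 0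

/-- An extremal vector `a` with the linear form `φ`. -/
structure Ex0 (a φ : Fin (M + 1) → Ω) : Prop where
  ne : a ≠ 0
  li : LinearIndependent ℂ φ
  ext : ∀ w, brK b a (brK b a w) = (2 * (φ ⬝ᵥ w)) • a

/-- The point `w` lies on the affine variety with generic point `μ`. -/
def AOn {σ : Type} (μ : σ → Ω) (w : σ → ℂ) : Prop :=
  ∀ P : MvPolynomial σ ℂ, MvPolynomial.aeval μ P = 0 → MvPolynomial.eval w P = 0

/-- The local ring at `w` of the affine variety with generic point `μ`. -/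
def aLoc {σ : Type} (μ : σ → Ω) (w : σ → ℂ) : Subalgebra ℂ Ω :=
  Algebra.adjoin ℂ {a | ∃ P Q : MvPolynomial σ ℂ, MvPolynomial.eval w Q ≠ 0 ∧
    a * MvPolynomial.aeval μ Q = MvPolynomial.aeval μ P}

variable {K : Type} [Field K] [Algebra ℂ K] {N : ℕ}

/-- The moment map `μ` at the generic point `x` of the cone. -/
structure Nm (S : Cn K N) (n : ℕ) (x : Fin S.M → Ω) (μ : Fin (M + 1) → Ω) : Prop where
  gen : S.GenO n ∅ x
  kil : LieAlgebra.IsKilling ℂ G
  simple : LieAlgebra.IsSimple ℂ G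
  mom : Mom b (fun a => S.dv ∅ x (S.vec ∅ x (killK b μ (co b Ω a)))) (fun _ => 0) μ
  wt : ∀ i, S.Wt ∅ x 1 (μ i)
  gal : ∀ θ : Ω ≃ₐ[ℂ] Ω, Fx (range x) θ → ∀ a, ∃ a',
    killK b μ (co b Ω a') = θ (killK b μ (co b Ω a))
  span : ∀ δ, S.Tan x δ → ∃ z : Fin (M + 1) → Ω,
    δ = ∑ i, z i • S.vec ∅ x (killK b μ (co b Ω (b i)))
  bdd : ∀ O, Ov ∅ O → ∀ ρ : Ω, PV O (S.sc ρ x) → ∀ i, ρ * μ i ∈ O
  reg : ∀ w : Fin (M + 1) → ℂ, w ≠ 0 → ∀ j, ∃ P Q : MvPolynomial (Fin (M + 1)) ℂ,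
    P.IsHomogeneous (2 * S.w j) ∧ Q.IsHomogeneous (S.w j) ∧ MvPolynomial.eval w Q ≠ 0 ∧
      x j * MvPolynomial.aeval μ Q = MvPolynomial.aeval μ P

/-- The generic point of the cone in terms of the function field. -/
structure Em (S : Cn K N) (x : Fin S.M → Ω) (ι : K →ₐ[ℂ] Ω) (r : Ω) : Prop where
  ne : r ≠ 0
  eq : ∀ j, x j = r ^ S.w j * ι (S.c j)
  tr : r ∉ cl (range ι)

end Vale.Agent.P292
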