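import Vale.Agent.P292.Z.Gal
import Vale.Agent.P276.E.GenA
import Vale.Agent.P276.E.FixA

/-! P292 Z/Emb (TASK). `exists_em`: `rk (range x) = 2 n + 2`, `sub_cl_e0`, `range_sub`, `rk_insert_le` give `2 n + 1 ≤ rk (pj (x ∘ e0))`; `gen_of_rk`, `exists_emb`; `r₀ ^ d = c / ι u`, `sc r₀ (ι ∘ c)` is on the cone with the same `e0` part; `uniq`. `range ι ⊆ cl (pj (x ∘ e0))` (`IsFunctionField`, divide by `t l ^ k`), which has rank at most `2 n + 1` (`rk_pj_le`), so `r` is not in it. `Em.eu`: the field kills `x (e0 j) / x (e0 l) = ι (t j / t l)`, so `cl (pj ..)` (`der_kill`); `x (e0 l) = r ^ d * ι ..`. `memK`: `mem_of_fix` with `M = adjoin ℂ (range x)` (`fixed`; `μ i` is algebraic by `wt`); `ν = μ i / r` is killed by the Euler field; if `ν ∉ cl (range ι)` then `r ∈ cl (insert ν (range ι))` (`cl_exch`), killed too; so `ν` is algebraic over `K` (algebra through `ι`) and in `K (r)`: `fix_a2`. `Em.ext`: `P002.ext_der` for `K[X] → W`, `X ↦ r` (injective),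 with the derivation on coefficients (`exists_cder`). Helper names start with `zem_`. -/

open Set Matrix

set_option linter.unusedSectionVars false

noncomputable section

namespace Vale.Agent.P292

open Vale.Agent.P271 Vale.Agent.P276

variable {G : Type} [LieRing G] [LieAlgebra ℂ G] {M : ℕ} {b : Module.Basis (Fin (M + 1)) ℂ G}
  {K : Type} [Field K] [Algebra ℂ K] {N n m : ℕ} {t : Fin (N + 1) → K} {S : Cn K N}
  {W : Type} [Field W] [Algebra ℂ W] [IsAlgClosed W] {x : Fin S.M → W} {μ : Fin (M + 1) → W}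
  {w : Fin (M + 1) → ℂ} {ι : K →ₐ[ℂ] W} {r : W} {x₀ : Fin (M + 1) → K}

theorem zem_aeval_mem {σ : Type} (F : IntermediateField ℂ W) {u : σ → W} (hu : ∀ j, u j ∈ F)
    (P : MvPolynomial σ ℂ) : MvPolynomial.aeval u P ∈ F := by
  induction P using MvPolynomial.induction_on with
  | C a =>
    rw [MvPolynomial.aeval_C]
    exact F.algebraMap_mem a
  | add p q hp hq =>
    rw [map_add]
    exact add_mem hp hq
  | mul_X p k hp =>
    rw [map_mul, MvPolynomial.aeval_X]
    exact mul_mem hp (hu k)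

theorem zem_range (ht : IsFunctionField t) (ι : K →ₐ[ℂ] W) :
    range ι ⊆ cl (pj fun j => ι (t j)) := by
  rintro _ ⟨a, rfl⟩
  obtain ⟨l, hl⟩ : ∃ l, t l ≠ 0 := Function.ne_iff.1 ht.1
  obtain ⟨d, P, Q, hP, hQ, h0, e⟩ := ht.2 a
  have h1 : a = MvPolynomial.aeval (fun i => t i / t l) P /
      MvPolynomial.aeval (fun i => t i / t l) Q := by
    rw [aeval_div_homog hP, aeval_div_homog hQ, ← e,
      div_div_div_cancel_right₀ (pow_ne_zero _ hl), mul_div_assoc, div_self h0, mul_one]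
  have h2 : ∀ j, ι (t j / t l) ∈ cl (pj fun j => ι (t j)) := fun j =>
    subset_cl _ ⟨j, l, map_div₀ ι _ _⟩
  rw [h1, map_div₀, MvPolynomial.comp_aeval_apply, MvPolynomial.comp_aeval_apply]
  exact div_mem (zem_aeval_mem _ h2 P) (zem_aeval_mem _ h2 Q)

theorem zem_cl {A : Set W} {y : W} :
    y ∈ cl A ↔ IsAlgebraic (IntermediateField.adjoin ℂ A) y :=
  IntermediateField.mem_restrictScalars ℂ |>.trans mem_algebraicClosure_iff

theorem zem_d (hS : S.Ok t n m) : 0 < m * (n + 1) := Nat.mul_pos hS.fano.pos (Nat.succ_pos n)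

theorem zem_e0 (hS : S.Ok t n m) (h : Em S x ι r) :
    x ∘ S.e0 = fun j => (r ^ (m * (n + 1)) * ι S.u) * ι (t j) := by
  funext j
  rw [Function.comp_apply, h.eq, hS.we0, hS.ce0, map_mul, mul_assoc]

theorem zem_div {D : Derivation ℂ W W} {a c e : W} (ha : D a = e * a) (hc : D c = e * c) :
    D (a / c) = 0 := by
  rw [Derivation.leibniz_div, ha, hc]
  simp only [smul_eq_mul]
  ring

theorem exists_em (hS : S.Ok t n m) (hx : S.GenO n ∅ x) : ∃ ι r, Em S x ι r := by
  have hrk : 2 * n + 2 ≤ rk (range x) := by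
    have := hx.2.2
    rw [empty_union] at this
    omega
  have hy : x ∘ S.e0 ≠ 0 := e0_ne hS hx.2.1 hx.ne
  have hon : On0 t (x ∘ S.e0) := hx.2.1.on0 hS
  obtain ⟨l, hl⟩ : ∃ l, (x ∘ S.e0) l ≠ 0 := Function.ne_iff.1 hy
  have h1 : rk (range x) ≤ rk (insert ((x ∘ S.e0) l) (pj (x ∘ S.e0))) :=
    rk_mono ((pj_finite _).insert _) ((sub_cl_e0 hS hx.2.1).trans (cl_le (range_sub hl)))
  have h2 := rk_insert_le (pj_finite (x ∘ S.e0)) ((x ∘ S.e0) l)
  obtain ⟨ι, c, hc, e⟩ := exists_emb hS.fano.ff hon (gen_of_rk hS.fano hon hy (by omega))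
  have hu : ι S.u ≠ 0 := (map_ne_zero ι).2 hS.une
  obtain ⟨r₀, hr₀⟩ := IsAlgClosed.exists_pow_nat_eq (c / ι S.u) (zem_d hS)
  have hz : S.On (S.sc r₀ fun i => ι (S.c i)) :=
    (Cn.On.map (z := S.c) (fun _ _ _ h => h) ι).sc r₀
  have hze : (S.sc r₀ fun i => ι (S.c i)) ∘ S.e0 = x ∘ S.e0 := by
    funext j
    rw [e j, Function.comp_apply, Cn.sc, hS.we0, hS.ce0, map_mul, hr₀, ← mul_assoc,
      div_mul_cancel₀ _ hu]
  have hz0 : (S.sc r₀ fun i => ι (S.c i)) ≠ 0 := fun h0 => hy (by rw [← hze, h0]; rfl)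
  obtain ⟨ζ, hζ, hxz⟩ := hS.uniq W _ x hz hx.2.1 hz0 hze
  have hζ0 : ζ ≠ 0 := by
    rintro rfl
    rw [zero_pow (zem_d hS).ne'] at hζ
    exact zero_ne_one hζ
  have hr0 : r₀ ≠ 0 := by
    rintro rfl
    rw [zero_pow (zem_d hS).ne'] at hr₀
    exact div_ne_zero hc hu hr₀.symm
  have heq : ∀ j, x j = (ζ * r₀) ^ S.w j * ι (S.c j) := fun j => by
    rw [congrFun hxz j, Cn.sc, Cn.sc, mul_pow, mul_assoc]
  refine ⟨ι, ζ * r₀, mul_ne_zero hζ0 hr0, heq, fun hr => ?_⟩
  have h3 : pj (x ∘ S.e0) = pj fun j => ι (t j) := by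
    rw [← pj_smul hc fun j => ι (t j)]
    exact congrArg pj (funext e)
  have h4 : range x ⊆ cl (pj (x ∘ S.e0)) := by
    rw [h3]
    refine subset_trans ?_ (cl_le (zem_range hS.fano.ff ι))
    rintro _ ⟨j, rfl⟩
    rw [heq]
    exact mul_mem (pow_mem hr _) (subset_cl _ ⟨_, rfl⟩)
  have h5 := rk_mono (pj_finite _) h4
  have h6 := rk_pj_le hS.fano hon
  omega

theorem Em.eu (hS : S.Ok t n m) (hx : S.GenO n ∅ x) (h : Em S x ι r) :
    (∀ a, S.dv ∅ x (S.eu x) (ι a) = 0) ∧ S.dv ∅ x (S.eu x) r = r := by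
  haveI : CharZero W := charZero_of_injective_algebraMap (algebraMap ℂ W).injective
  have hD := (dv_spec hS hx hx.2.1.eu).2
  have hu : ι S.u ≠ 0 := (map_ne_zero ι).2 hS.une
  have hD' : ∀ j, S.dv ∅ x (S.eu x) ((x ∘ S.e0) j) = ((m * (n + 1) : ℕ) : W) * (x ∘ S.e0) j :=
    fun j => by rw [Function.comp_apply, hD, Cn.eu, hS.we0]
  have h3 : pj (x ∘ S.e0) = pj fun j => ι (t j) := by
    rw [zem_e0 hS h, pj_smul (mul_ne_zero (pow_ne_zero _ h.ne) hu)]
  have h1 : ∀ a, S.dv ∅ x (S.eu x) (ι a) = 0 := by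
    intro a
    refine der_kill (A := pj (x ∘ S.e0)) ?_ _ ?_
    · rintro _ ⟨i, j, rfl⟩
      exact zem_div (hD' i) (hD' j)
    · rw [h3]
      exact zem_range hS.fano.ff ι ⟨a, rfl⟩
  refine ⟨h1, ?_⟩
  obtain ⟨l, hl⟩ : ∃ l, t l ≠ 0 := Function.ne_iff.1 hS.fano.ff.1
  have h2 := hD' l
  obtain ⟨e, he⟩ := Nat.exists_eq_succ_of_ne_zero (zem_d hS).ne'
  have h4 : ι (S.c (S.e0 l)) ≠ 0 := by
    rw [hS.ce0, map_mul]
    exact mul_ne_zero hu ((map_ne_zero ι).2 hl)
  rw [Function.comp_apply, h.eq, hS.we0, Derivation.leibniz, h1, Derivation.leibniz_pow, he] at h2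
  simp only [smul_eq_mul, mul_zero, zero_add, nsmul_eq_mul, Nat.succ_eq_add_one,
    Nat.add_sub_cancel] at h2
  have h5 : ((e + 1 : ℕ) : W) ≠ 0 := Nat.cast_ne_zero.2 (Nat.succ_ne_zero e)
  have h6 : (ι (S.c (S.e0 l)) * ((e + 1 : ℕ) : W) * r ^ e) * S.dv ∅ x (S.eu x) r =
      (ι (S.c (S.e0 l)) * ((e + 1 : ℕ) : W) * r ^ e) * r := by
    linear_combination h2
  exact mul_left_cancel₀ (mul_ne_zero (mul_ne_zero h4 h5) (pow_ne_zero _ h.ne)) h6

theorem Nm.memK (hS : S.Ok t n m) (h : Nm b S n x μ) (he : Em S x ι r) :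
    ∃ x₀ : Fin (M + 1) → K, ∀ i, μ i = r * ι (x₀ i) := by
  obtain ⟨h1, h2⟩ := he.eu hS h.gen
  have key : ∀ i, ∃ a : K, μ i = r * ι a := by
    intro i
    have hcl : μ i ∈ cl (range x) := by
      have := (h.wt i).1
      rwa [empty_union] at this
    have hM : μ i ∈ IntermediateField.adjoin ℂ (range x) :=
      mem_of_fix _ (zem_cl.1 hcl) fun θ hθ =>
        h.fixed hS (fun a ha => hθ a (IntermediateField.subset_adjoin _ _ ha)) i
    have hν : S.dv ∅ x (S.eu x) (μ i / r) = 0 :=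
      zem_div (h.wt i).2 (by rw [h2, Nat.cast_one, one_mul])
    have hr : r ∈ cl (insert r (range ι)) := subset_cl _ (mem_insert _ _)
    have h3 : μ i / r ∈ cl (insert r (range ι)) := by
      refine div_mem (cl_le ?_ hcl) hr
      rintro _ ⟨j, rfl⟩
      rw [he.eq]
      exact mul_mem (pow_mem hr _) (subset_cl _ (mem_insert_of_mem _ ⟨_, rfl⟩))
    have h4 : μ i / r ∈ cl (range ι) := by
      by_contra hc
      have h5 := der_kill (D := S.dv ∅ x (S.eu x)) (A := insert (μ i / r) (range ι)) (by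
        rintro _ (rfl | ⟨a, rfl⟩)
        · exact hν
        · exact h1 a) r (cl_exch h3 hc)
      rw [h2] at h5
      exact he.ne h5
    have hb : AlgebraicIndependent (IntermediateField.adjoin ℂ (range ι)) fun _ : Unit => r :=
      algebraicIndependent_unique_type_iff.2 fun ha => he.tr (zem_cl.2 ha)
    have hr' : r ∈ IntermediateField.adjoin (IntermediateField.adjoin ℂ (range ι))
        (range fun _ : Unit => r) := IntermediateField.subset_adjoin _ _ ⟨(), rfl⟩
    have h6 : IntermediateField.adjoin ℂ (range x) ≤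
        (IntermediateField.adjoin (IntermediateField.adjoin ℂ (range ι))
          (range fun _ : Unit => r)).restrictScalars ℂ := by
      rw [IntermediateField.adjoin_le_iff]
      rintro _ ⟨j, rfl⟩
      rw [SetLike.mem_coe, IntermediateField.mem_restrictScalars, he.eq]
      exact mul_mem (pow_mem hr' _) (IntermediateField.algebraMap_mem _
        (⟨ι (S.c j), IntermediateField.subset_adjoin _ _ ⟨_, rfl⟩⟩ :
          IntermediateField.adjoin ℂ (range ι)))
    obtain ⟨y, hy⟩ := fix_a2 hb (div_mem (h6 hM) hr') (zem_cl.1 h4)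
    have h7 : IntermediateField.adjoin ℂ (range ι) ≤ ι.fieldRange := by
      rw [IntermediateField.adjoin_le_iff]
      rintro _ ⟨a, rfl⟩
      exact ⟨a, rfl⟩
    obtain ⟨a, ha⟩ := h7 y.2
    refine ⟨a, ?_⟩
    have h8 : ι a = μ i / r := ha.trans hy
    rw [h8, mul_div_cancel₀ _ he.ne]
  choose x₀ hx₀ using key
  exact ⟨x₀, hx₀⟩

theorem Em.ext (h : Em S x ι r) (D : Derivation ℂ K K) :
    ∃ D' : Derivation ℂ W W, (∀ a, D' (ι a) = ι (D a)) ∧ D' r = 0 := by
  haveI : CharZero W := charZero_of_injective_algebraMap (algebraMap ℂ W).injective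
  obtain ⟨D₁, hD₁⟩ := exists_cder D
  let φ : Polynomial K →ₐ[ℂ] W := Polynomial.eval₂AlgHom ι r fun _ => Commute.all _ _
  have hφ : ∀ p, φ p = Polynomial.eval₂ (ι : K →+* W) r p := fun _ => rfl
  let f : K →+* IntermediateField.adjoin ℂ (range ι) :=
    (ι : K →+* W).codRestrict _ fun a => IntermediateField.subset_adjoin _ _ ⟨a, rfl⟩
  have hf : (algebraMap (IntermediateField.adjoin ℂ (range ι)) W).comp f = (ι : K →+* W) :=
    RingHom.ext fun _ => rfl
  have hinj : Function.Injective φ := by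
    rw [injective_iff_map_eq_zero]
    intro p hp
    by_contra h0
    refine h.tr (zem_cl.2 ⟨p.map f, (Polynomial.map_ne_zero_iff f.injective).2 h0, ?_⟩)
    rw [Polynomial.aeval_def, Polynomial.eval₂_map, hf, ← hφ, hp]
  obtain ⟨D', hD'⟩ := Vale.Agent.P002.ext_der' φ hinj D₁
  have hC : ∀ a, φ (Polynomial.C a) = ι a := fun a => by
    rw [hφ, Polynomial.eval₂_C]
    rfl
  have hX : φ Polynomial.X = r := by rw [hφ, Polynomial.eval₂_X]
  refine ⟨D', fun a => ?_, ?_⟩
  · have h1 : D₁ (Polynomial.C a) = Polynomial.C (D a) := by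
      ext i
      rw [hD₁, Polynomial.coeff_C, Polynomial.coeff_C]
      split_ifs
      · rfl
      · exact map_zero D
    rw [← hC, hD', h1, hC]
  · have h1 : D₁ Polynomial.X = 0 := by
      ext i
      rw [hD₁, Polynomial.coeff_X, Polynomial.coeff_zero]
      split_ifs
      · exact D.map_one_eq_zero
      · exact map_zero D
    rw [← hX, hD', h1, map_zero]

end Vale.Agent.P292
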