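import Vale.Agent.P292.Z.Br

/-! P292 Z/Exp (TASK). `stab`: one step `y' = exp (ad a) y`. Let `Y i : ℂ[X]` be the `i`-th coordinate of `∑ j, X ^ j / j! • (ad a ^ j) y`; `derivative (Y i) = aeval Y (adP b a i)`, so `derivative (aeval Y P) = aeval Y (dl b a P)` (induction on `P`). All `aeval Y P`, `P ∈ S`, vanish at `0`, so all their coefficients vanish (induction on the index for all `P ∈ S`, `coeff_derivative`); evaluate at `1`. `Mom.der_aeval`: chain rule and Euler (`IsHomogeneous.sum_X_mul_pderiv`), or induction on monomials. `exists_onX`: `x l ≠ 0`, a point of the chart ring where `P` does not vanish (`exists_pt_of_ne_top`, `chart_onX` of P271, or `base_hom` for `adjoin ℂ {x i / x l, (P (x / x l))⁻¹}`). Helper names start with `zxp_`. -/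

set_option linter.unusedSectionVars false

noncomputable section

namespace Vale.Agent.P292

open Vale.Agent.P271 Vale.Agent.P276

variable {G : Type} [LieRing G] [LieAlgebra ℂ G] {M : ℕ} {b : Module.Basis (Fin (M + 1)) ℂ G}
  {Ω : Type} [Field Ω] [Algebra ℂ Ω] {X : G → Derivation ℂ Ω Ω} {lam : G → Ω}
  {x : Fin (M + 1) → Ω} {w : Fin (M + 1) → ℂ}

theorem zxp_chain {R : Type} [CommRing R] [Algebra ℂ R] (D : Derivation ℂ R R)
    (Y : Fin (M + 1) → R) (P : MvPolynomial (Fin (M + 1)) ℂ) : D (MvPolynomial.aeval Y P) =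
      ∑ i, MvPolynomial.aeval Y (MvPolynomial.pderiv i P) * D (Y i) := by
  induction P using MvPolynomial.induction_on with
  | C a => simp
  | add p q hp hq => simp only [map_add, hp, hq, add_mul, Finset.sum_add_distrib]
  | mul_X p j h =>
    have e : ∀ i, MvPolynomial.aeval Y (MvPolynomial.pderiv i (p * MvPolynomial.X j)) * D (Y i) =
        (if j = i then MvPolynomial.aeval Y p * D (Y i) else 0) +
          Y j * (MvPolynomial.aeval Y (MvPolynomial.pderiv i p) * D (Y i)) := fun i => by
      rw [Derivation.leibniz, MvPolynomial.pderiv_X, smul_eq_mul, smul_eq_mul, map_add, map_mul,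
        map_mul, MvPolynomial.aeval_X, Pi.single_apply]
      split_ifs
      · rw [map_one]
        ring
      · rw [map_zero]
        ring
    rw [map_mul, MvPolynomial.aeval_X, Derivation.leibniz, h, smul_eq_mul, smul_eq_mul]
    simp only [e, Finset.sum_add_distrib, Finset.sum_ite_eq, Finset.mem_univ, if_true,
      Finset.mul_sum]

theorem zxp_dl (a : G) (P : MvPolynomial (Fin (M + 1)) ℂ) :
    dl b a P = ∑ i, MvPolynomial.pderiv i P * adP b a i := by
  have h := zxp_chain (dl b a) MvPolynomial.X P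
  simp only [MvPolynomial.aeval_X_left_apply] at h
  rw [h]
  simp only [dl, MvPolynomial.mkDerivation_X]

theorem zxp_br (a v : G) (i : Fin (M + 1)) :
    b.repr ⁅a, v⁆ i = ∑ l, b.repr ⁅a, b l⁆ i * b.repr v l := by
  have h : ⁅a, v⁆ = ∑ l, b.repr v l • ⁅a, b l⁆ := by
    conv_lhs => rw [← b.sum_repr v]
    simp only [lie_sum, lie_smul]
  rw [h, map_sum, Finsupp.finsetSum_apply]
  exact Finset.sum_congr rfl fun l _ => by rw [map_smul, Finsupp.smul_apply, smul_eq_mul, mul_comm]

theorem zxp_step (S : Submodule ℂ (MvPolynomial (Fin (M + 1)) ℂ))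
    (hS : ∀ a, ∀ P ∈ S, dl b a P ∈ S) {y y' : G}
    (h0 : ∀ P ∈ S, MvPolynomial.eval (b.equivFun y) P = 0) (h : AdStep y y') :
    ∀ P ∈ S, MvPolynomial.eval (b.equivFun y') P = 0 := by
  obtain ⟨a, k, hk, rfl⟩ := h
  let Y : Fin (M + 1) → Polynomial ℂ := fun i => ∑ j ∈ Finset.range k,
    Polynomial.monomial j ((j.factorial : ℂ)⁻¹ * b.repr ((LieAlgebra.ad ℂ G a ^ j) y) i)
  have hc : ∀ i j, (Y i).coeff j =
      (j.factorial : ℂ)⁻¹ * b.repr ((LieAlgebra.ad ℂ G a ^ j) y) i := fun i j => by
    simp only [Y, Polynomial.finsetSum_coeff, Polynomial.coeff_monomial, Finset.sum_ite_eq',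
      Finset.mem_range]
    split_ifs with hj
    · rfl
    · rw [pow_eq_zero_of_le (not_lt.1 hj) hk]
      simp
  have hd : ∀ i, Polynomial.derivative (Y i) = MvPolynomial.aeval Y (adP b a i) := fun i => by
    ext j
    have h1 : ((j + 1).factorial : ℂ)⁻¹ * (j + 1) = (j.factorial : ℂ)⁻¹ := by
      have h2 : (j : ℂ) + 1 ≠ 0 := Nat.cast_add_one_ne_zero j
      rw [Nat.factorial_succ, Nat.cast_mul, Nat.cast_add_one, mul_inv, mul_right_comm,
        inv_mul_cancel₀ h2, one_mul]
    rw [Polynomial.coeff_derivative, hc, mul_right_comm, h1, pow_succ', Module.End.mul_apply,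
      LieAlgebra.ad_apply, zxp_br, adP, map_sum, Polynomial.finsetSum_coeff, Finset.mul_sum]
    refine Finset.sum_congr rfl fun l _ => ?_
    rw [map_mul, MvPolynomial.aeval_C, MvPolynomial.aeval_X, Polynomial.algebraMap_eq,
      Polynomial.coeff_C_mul, hc, mul_left_comm]
  have hD : ∀ P, Polynomial.derivative (MvPolynomial.aeval Y P) =
      MvPolynomial.aeval Y (dl b a P) := fun P => by
    rw [zxp_dl, map_sum]
    refine (zxp_chain Polynomial.derivative' Y P).trans (Finset.sum_congr rfl fun i _ => ?_)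
    rw [map_mul, ← hd]
    rfl
  have he : ∀ (c : ℂ) P, (MvPolynomial.aeval Y P).eval c =
      MvPolynomial.eval (fun i => (Y i).eval c) P := fun c P => by
    have h1 := MvPolynomial.comp_aeval_apply Y (Polynomial.aeval (R := ℂ) c) P
    rw [Polynomial.coe_aeval_eq_eval] at h1
    exact h1
  have hz : ∀ n, ∀ P ∈ S, (MvPolynomial.aeval Y P).coeff n = 0 := fun n => by
    induction n with
    | zero =>
      intro P hP
      have e : (fun i => (Y i).eval 0) = b.equivFun y := funext fun i => by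
        rw [← Polynomial.coeff_zero_eq_eval_zero, hc]
        simp
      rw [Polynomial.coeff_zero_eq_eval_zero, he, e, h0 P hP]
    | succ n ih =>
      intro P hP
      have h1 := ih _ (hS a P hP)
      rw [← hD, Polynomial.coeff_derivative] at h1
      exact (mul_eq_zero.1 h1).resolve_right (Nat.cast_add_one_ne_zero n)
  intro P hP
  have e : (fun i => (Y i).eval 1) = b.equivFun
      (∑ i ∈ Finset.range k, ((i.factorial : ℂ)⁻¹) • (LieAlgebra.ad ℂ G a ^ i) y) :=
    funext fun i => by
      simp only [Y, Polynomial.eval_finsetSum, Polynomial.eval_monomial, one_pow, mul_one,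
        map_sum, map_smul, Finset.sum_apply, Pi.smul_apply, smul_eq_mul,
        Module.Basis.equivFun_apply]
  have h1 : MvPolynomial.aeval Y P = 0 := Polynomial.ext fun n => hz n P hP
  rw [← e, ← he, h1, Polynomial.eval_zero]

theorem stab (S : Submodule ℂ (MvPolynomial (Fin (M + 1)) ℂ)) (hS : ∀ a, ∀ P ∈ S, dl b a P ∈ S)
    {y y' : G} (h0 : ∀ P ∈ S, MvPolynomial.eval (b.equivFun y) P = 0)
    (h : Relation.ReflTransGen AdStep y y') :
    ∀ P ∈ S, MvPolynomial.eval (b.equivFun y') P = 0 := by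
  induction h with
  | refl => exact h0
  | tail _ h ih => exact zxp_step S hS ih h

theorem dl_hom (a : G) {P : MvPolynomial (Fin (M + 1)) ℂ} {k : ℕ} (hP : P.IsHomogeneous k) :
    (dl b a P).IsHomogeneous k := by
  rcases k with _ | k
  · rw [MvPolynomial.totalDegree_eq_zero_iff_eq_C.1 (Nat.le_zero.1 hP.totalDegree_le),
      MvPolynomial.derivation_C]
    exact MvPolynomial.isHomogeneous_zero _ _ _
  · rw [zxp_dl]
    exact MvPolynomial.IsHomogeneous.sum _ _ _ fun i _ => hP.pderiv.mul (adP_hom a i)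

theorem Mom.der_aeval (h : Mom b X lam x) (a : G) {P : MvPolynomial (Fin (M + 1)) ℂ} {k : ℕ}
    (hP : P.IsHomogeneous k) : X a (MvPolynomial.aeval x P) =
      k * lam a * MvPolynomial.aeval x P - MvPolynomial.aeval x (dl b a P) := by
  have h1 := congrArg (MvPolynomial.aeval x) hP.sum_X_mul_pderiv
  rw [map_sum, map_nsmul, nsmul_eq_mul] at h1
  rw [zxp_chain, zxp_dl, map_sum, mul_right_comm, ← h1, Finset.sum_mul, ← Finset.sum_sub_distrib]
  refine Finset.sum_congr rfl fun i _ => ?_
  rw [h.der, map_mul, map_mul, MvPolynomial.aeval_X, aeval_adP]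
  ring

theorem exists_onX (hx : x ≠ 0) {P : MvPolynomial (Fin (M + 1)) ℂ} {k : ℕ} (hP : P.IsHomogeneous k)
    (h : MvPolynomial.aeval x P ≠ 0) : ∃ w, OnX x w ∧ MvPolynomial.eval w P ≠ 0 := by
  obtain ⟨l, hl⟩ := Function.ne_iff.1 hx
  have hl' : x l ≠ 0 := hl
  by_contra hc
  obtain ⟨m, hm⟩ := reg_rad (⊥ : Ideal (chartRing x l)) (g := MvPolynomial.aeval (chartX x l) P)
    fun φ _ => by
      rw [map_aeval_chart]
      by_contra h1
      exact hc ⟨_, chart_onX hl' φ, h1⟩
  have h1 := congrArg Subtype.val (pow_eq_zero_iff'.1 (Ideal.mem_bot.1 hm)).1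
  rw [coe_aeval_homog hP] at h1
  exact div_ne_zero h (pow_ne_zero k hl') h1

theorem onX_smul (hw : OnX x w) {c : ℂ} (hc : c ≠ 0) : OnX x (c • w) := by
  refine ⟨smul_ne_zero hc hw.1, fun d P hP h => ?_⟩
  have e : c • w = fun i => w i / c⁻¹ := funext fun i => by
    rw [Pi.smul_apply, smul_eq_mul, div_inv_eq_mul, mul_comm]
  rw [e, eval_div_homog hP, hw.2 d P hP h, zero_div]

end Vale.Agent.P292
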