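import Vale.Agent.P292.Z.Br

/-! P292 Z/Ext (TASK). Extremal elements over `ℂ`. `sq_ne`: with `E = ad e`, `A = ad a`, `E ^ 2 = 0` gives `E A E = 0` (expand `ad ⁅e, ⁅e, a⁆⁆ = 0`), so `(E A) ^ 2 = 0`, the trace vanishes, `e = 0`. `IsExt.form`: `⁅e, ⁅e, a⁆⁆ = φ a • e` with `φ` linear; `φ a * κ e a' = κ ⁅e, ⁅e, a⁆⁆ a' = κ a ⁅e, ⁅e, a'⁆⁆ = φ a' * κ e a`; choose `a'` with `κ e a' ≠ 0`. `IsExt.reach`: the two constants agree (pair with `κ`: both give `κ ⁅e, z⁆ ⁅e, z⁆` up to sign); with `γ = c * κ e z`, `exp (ad e) z = z + ⁅e, z⁆ + (γ / 2) • e`, `exp (r ad z) e = (2 / γ) • exp (ad e) z` for `r = - 2 / γ`; so `z = (γ / 2) • exp (- ad e) exp (r ad z) e` (`IsNilpotent.exp_eq_sum`, or direct computation with `k = 3`). `AdStep.aut`: `LieDerivation.exp` of `LieDerivation.ad`. Helper names start with `zex_`. -/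

set_option linter.unusedSectionVars false

noncomputable section

namespace Vale.Agent.P292

open Vale.Agent.P271 Vale.Agent.P276

variable {G : Type} [LieRing G] [LieAlgebra ℂ G] {M : ℕ} {b : Module.Basis (Fin (M + 1)) ℂ G}
  {e z y y' : G}

theorem zex_nondeg [LieAlgebra.IsKilling ℂ G] (he : e ≠ 0) : ∃ a, killingForm ℂ G e a ≠ 0 := by
  by_contra h
  push Not at h
  have h1 : e ∈ LinearMap.ker (killingForm ℂ G) := LinearMap.ext h
  rw [LieAlgebra.IsKilling.ker_killingForm_eq_bot] at h1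
  exact he h1

theorem sq_ne [Module.Finite ℂ G] [LieAlgebra.IsKilling ℂ G] (he : e ≠ 0) :
    ∃ a : G, ⁅e, ⁅e, a⁆⁆ ≠ 0 := by
  by_contra h
  push Not at h
  obtain ⟨a, ha⟩ := zex_nondeg he
  have h1 : ∀ x : G, ⁅e, ⁅a, ⁅e, x⁆⁆⁆ = 0 := fun x => by
    have h2 := h ⁅a, x⁆
    rw [leibniz_lie e a x, lie_add, leibniz_lie e ⁅e, a⁆ x, h, zero_lie, zero_add,
      leibniz_lie e a, h, lie_zero, add_zero, ← two_smul ℂ, smul_eq_zero] at h2
    rw [leibniz_lie, h, lie_zero, add_zero]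
    exact h2.resolve_left two_ne_zero
  refine ha ?_
  rw [killingForm_apply_apply]
  refine (LinearMap.isNilpotent_trace_of_isNilpotent ⟨2, ?_⟩).eq_zero
  ext x
  simp [pow_two, h1]

theorem zex_inv (x a a' : G) : killingForm ℂ G ⁅x, a⁆ a' = -killingForm ℂ G a ⁅x, a'⁆ :=
  LieModule.traceForm_apply_lie_apply' ℂ G G x a a'

theorem zex_comm (a a' : G) : killingForm ℂ G a a' = killingForm ℂ G a' a :=
  LieModule.traceForm_comm ℂ G G a a'

theorem IsExt.form [Module.Finite ℂ G] [LieAlgebra.IsKilling ℂ G] (h : IsExt e) (he : e ≠ 0) :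
    ∃ c : ℂ, c ≠ 0 ∧ ∀ a, ⁅e, ⁅e, a⁆⁆ = (c * killingForm ℂ G e a) • e := by
  choose φ hφ using h
  obtain ⟨a', ha'⟩ := zex_nondeg he
  have h1 : ∀ a, φ a = φ a' / killingForm ℂ G e a' * killingForm ℂ G e a := fun a => by
    have h2 := zex_inv e ⁅e, a⁆ a'
    have h3 := zex_inv e ⁅e, a'⁆ a
    rw [hφ, map_smul, LinearMap.smul_apply, smul_eq_mul] at h2 h3
    rw [zex_comm ⁅e, a'⁆, ← h2] at h3
    rw [div_mul_eq_mul_div, h3, mul_div_assoc, div_self ha', mul_one]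
  refine ⟨φ a' / killingForm ℂ G e a', fun h0 => ?_, fun a => by rw [hφ, ← h1]⟩
  obtain ⟨a, ha⟩ := sq_ne he
  exact ha (by rw [hφ, h1, h0, zero_mul, zero_smul])

theorem IsExt.cube (h : IsExt e) : LieAlgebra.ad ℂ G e ^ 3 = 0 := by
  ext a
  obtain ⟨c, hc⟩ := h a
  simp [pow_succ, hc]

theorem zex_step (h : IsExt e) (r : ℂ) (y : G) :
    AdStep y (y + r • ⁅e, y⁆ + (r ^ 2 / 2) • ⁅e, ⁅e, y⁆⁆) := by
  refine ⟨r • e, 3, by rw [map_smul, smul_pow, h.cube, smul_zero], ?_⟩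
  simp only [Finset.sum_range_succ, Finset.sum_range_zero, pow_succ, pow_zero, one_mul,
    Module.End.mul_apply, Module.End.one_apply, LieAlgebra.ad_apply, smul_lie, lie_smul,
    Nat.factorial, Nat.succ_eq_add_one]
  push_cast
  module

theorem IsExt.reach [Module.Finite ℂ G] [LieAlgebra.IsKilling ℂ G] (he : IsExt e) (hz : IsExt z)
    (h : killingForm ℂ G e z ≠ 0) :
    ∃ (c : ℂ) (y : G), c ≠ 0 ∧ Relation.ReflTransGen AdStep e y ∧ z = c • y := by
  obtain ⟨c, c0, hc⟩ := he.form (by rintro rfl; simp at h)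
  obtain ⟨c', -, hc'⟩ := hz.form (by rintro rfl; simp at h)
  have h1 := hc z
  have h2 := hc' e
  rw [zex_comm z e] at h2
  have h3 : ⁅z, e⁆ = -⁅e, z⁆ := (lie_skew z e).symm
  have h4 : c' = c := by
    have a1 := zex_inv e z ⁅e, z⁆
    have a2 := zex_inv z e ⁅z, e⁆
    rw [h1, map_smul, smul_eq_mul, zex_comm z e] at a1
    rw [h2, map_smul, smul_eq_mul, h3, map_neg, map_neg, LinearMap.neg_apply, neg_neg, a1,
      neg_inj] at a2
    exact (mul_right_cancel₀ h (mul_right_cancel₀ h a2)).symm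
  rw [h4] at h2
  have g0 := mul_ne_zero c0 h
  generalize c * killingForm ℂ G e z = γ at h1 h2 g0
  refine ⟨γ / 2, _, div_ne_zero g0 two_ne_zero,
    (Relation.ReflTransGen.single (zex_step hz (-2 / γ) e)).tail (zex_step he (-1) _), ?_⟩
  rw [h2, h3]
  simp only [lie_add, lie_smul, lie_neg, lie_self, h1, lie_zero, smul_zero]
  match_scalars <;> field_simp <;> ring

theorem AdStep.aut (h : AdStep y y') : ∃ s : G ≃ₗ⁅ℂ⁆ G, (∀ a, AdStep a (s a)) ∧ y' = s y := by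
  obtain ⟨a, k, hk, rfl⟩ := h
  let _ : Module ℚ G := Module.compHom G (algebraMap ℚ ℂ)
  let _ : LieAlgebra ℚ G := ⟨fun t x y => lie_smul (algebraMap ℚ ℂ t) x y⟩
  have h1 : (LieDerivation.ad ℂ G a).toLinearMap ^ k = 0 := by
    rw [LieDerivation.coe_ad_apply_eq_ad_apply, hk]
  have h0 : IsNilpotent (LieDerivation.ad ℂ G a).toLinearMap := ⟨k, h1⟩
  have h2 : ∀ x, LieDerivation.exp (LieDerivation.ad ℂ G a) h0 x =
      ∑ i ∈ Finset.range k, ((i.factorial : ℂ)⁻¹) • (LieAlgebra.ad ℂ G a ^ i) x := fun x => by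
    rw [LieDerivation.exp_map_apply, IsNilpotent.exp_eq_sum h1, LinearMap.sum_apply,
      LieDerivation.coe_ad_apply_eq_ad_apply]
    refine Finset.sum_congr rfl fun i _ => ?_
    rw [LinearMap.smul_apply]
    change algebraMap ℚ ℂ _ • (LieAlgebra.ad ℂ G a ^ i) x = _
    rw [map_inv₀, map_natCast]
  exact ⟨_, fun x => ⟨a, k, hk, h2 x⟩, (h2 y).symm⟩

theorem steps_smul (h : Relation.ReflTransGen AdStep y y') (c : ℂ) :
    Relation.ReflTransGen AdStep (c • y) (c • y') := by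
  induction h with
  | refl => exact .refl
  | tail _ h ih =>
    obtain ⟨s, hs, rfl⟩ := h.aut
    exact ih.tail (by rw [← map_smul]; exact hs _)

theorem steps_aut (h : Relation.ReflTransGen AdStep y y') : ∃ s : G ≃ₗ⁅ℂ⁆ G, y' = s y := by
  induction h with
  | refl => exact ⟨LieEquiv.refl, rfl⟩
  | tail _ h ih =>
    obtain ⟨s, -, rfl⟩ := h.aut
    obtain ⟨s', rfl⟩ := ih
    exact ⟨s'.trans s, rfl⟩

end Vale.Agent.P292
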