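import Vale.Agent.P292.Z.Aff
import Vale.Agent.P292.B.Main

/-! P292 Z/Val (TASK). `eu`: `dv_spec` with `Cn.On.eu`, `wt`. `pv`: `exists_PV` gives `ρ'` with `ρ' μ` primitive; `exists_pl`, residue vector `x'`, `On0 μ x'` (`Place.Red.aeval`, `aeval_smul_hom`), `exists_spec` with `t := μ` gives `w`; by `reg` at `w`, `Q (ρ' μ)` is a unit, so `ρ' ^ w j * x j ∈ O` for all `j`; some `ρ ^ w j * x j` is a unit, so `v ρ' ≤ v ρ`; `bdd` gives the other inequality; `PV.of_val`. `val`: `x j ∈ aLoc` by `reg`; `On` by `comp_aeval_apply`; not zero: `adom` with `f = id`, `exists_pv`, `pv`, `μ` is primitive (`φ (μ i) = w i`, units), `PV.unique` gives `v ρ = 1`, so some `x j` has valuation `1`. Helper names start with `zva_`. -/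

open Set Matrix

set_option linter.unusedSectionVars false

noncomputable section

namespace Vale.Agent.P292

open Vale.Agent.P271 Vale.Agent.P276

variable {G : Type} [LieRing G] [LieAlgebra ℂ G] {M : ℕ} {b : Module.Basis (Fin (M + 1)) ℂ G}
  {K : Type} [Field K] [Algebra ℂ K] {N n m : ℕ} {t : Fin (N + 1) → K} {S : Cn K N}
  {W : Type} [Field W] [Algebra ℂ W] [IsAlgClosed W] {x : Fin S.M → W} {μ : Fin (M + 1) → W}
  {w : Fin (M + 1) → ℂ} {ι : K →ₐ[ℂ] W} {r : W} {x₀ : Fin (M + 1) → K}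

theorem Nm.eu (hS : S.Ok t n m) (h : Nm b S n x μ) :
    (∀ i, S.dv ∅ x (S.eu x) (μ i) = μ i) ∧ ∀ j, S.dv ∅ x (S.eu x) (x j) = S.eu x j := by
  refine ⟨fun i => ?_, (dv_spec hS h.gen h.gen.2.1.eu).2⟩
  have h1 := (h.wt i).2
  rwa [Nat.cast_one, one_mul] at h1

theorem Nm.aOn (hS : S.Ok t n m) (h : Nm b S n x μ) (hw : OnX μ w) : AOn μ w := by
  exact aOn_of (h.eu hS).1 hw

theorem Nm.pv (hS : S.Ok t n m) (h : Nm b S n x μ) {O : ValuationSubring W} (hO : Ov ∅ O) {ρ : W}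
    (hρ : PV O (S.sc ρ x)) : PV O fun i => ρ * μ i := by
  obtain ⟨i₀, -, hp⟩ := exists_PV O h.mom.ne
  obtain ⟨ρ', hρ'⟩ : ∃ ρ', ρ' = (μ i₀)⁻¹ := ⟨_, rfl⟩
  rw [← hρ'] at hp
  obtain ⟨κ, i1, i2, i3, P, rfl⟩ := exists_pl hO
  have hex : ∀ a, ∃ y, P.Red (ρ' * μ a) y := fun a =>
    Place.exists_red ((P.O.valuation_le_one_iff _).2 (hp.1 a))
  choose x' hx' using hex
  have hV : P.RedV (fun a => ρ' * μ a) x' := hx'
  obtain ⟨a₀, ha₀⟩ := hp.2
  have hx0 : x' ≠ 0 := fun h0 => (hx' a₀).ne_zero ha₀ (congrFun h0 a₀)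
  have hon : On0 μ x' := by
    intro d Q hQ h0
    have h1 := Place.Red.aeval hV Q
    rw [aeval_smul_hom hQ, h0, mul_zero] at h1
    exact h1.unique Place.red_zero
  obtain ⟨v, hv, hspec⟩ := exists_spec (t := μ) hon hx0
  have hle : ∀ j, P.O.valuation (ρ' ^ S.w j * x j) ≤ 1 := by
    intro j
    obtain ⟨A, Q, hA, hQ, hQ0, e⟩ := h.reg v hv.1 j
    have h1 := (Place.Red.aeval hV Q).val_eq_one (hspec _ Q hQ hQ0)
    have h2 := (Place.Red.aeval hV A).val_le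
    rw [aeval_smul_hom hQ] at h1
    rw [aeval_smul_hom hA, ← e] at h2
    have h3 : ρ' ^ (2 * S.w j) * (x j * MvPolynomial.aeval μ Q) =
        (ρ' ^ S.w j * x j) * (ρ' ^ S.w j * MvPolynomial.aeval μ Q) := by ring
    rwa [h3, map_mul, h1, mul_one] at h2
  obtain ⟨j, hj⟩ := hρ.2
  have hj' : P.O.valuation (ρ ^ S.w j * x j) = 1 := hj
  have g1 : P.O.valuation ρ' ≤ P.O.valuation ρ := by
    have h1 := hle j
    rw [← hj', map_mul, map_mul, map_pow, map_pow] at h1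
    have h2 : P.O.valuation (x j) ≠ 0 := by
      intro h0
      rw [map_mul, h0, mul_zero] at hj'
      exact zero_ne_one hj'
    exact le_of_pow_le_pow_left₀ (hS.wpos j).ne' zero_le
      (le_of_mul_le_mul_right h1 (zero_lt_iff.2 h2))
  have g2 : P.O.valuation ρ ≤ P.O.valuation ρ' := by
    have h1 := (P.O.valuation_le_one_iff _).2 (h.bdd P.O hO ρ hρ a₀)
    have ha : P.O.valuation (ρ' * μ a₀) = 1 := ha₀
    rw [← ha, map_mul, map_mul] at h1
    have h2 : P.O.valuation (μ a₀) ≠ 0 := by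
      intro h0
      rw [map_mul, h0, mul_zero] at ha
      exact zero_ne_one ha
    exact le_of_mul_le_mul_right h1 (zero_lt_iff.2 h2)
  exact hp.of_val (le_antisymm g1 g2)

theorem Nm.mem (h : Nm b S n x μ) (hw : w ≠ 0) (j : Fin S.M) : x j ∈ aLoc μ w := by
  obtain ⟨A, Q, -, -, hQ0, e⟩ := h.reg w hw j
  exact Algebra.subset_adjoin ⟨A, Q, hQ0, e⟩

theorem Nm.val (hS : S.Ok t n m) (h : Nm b S n x μ) (hw : OnX μ w) (φ : aLoc μ w →ₐ[ℂ] ℂ)
    (h1 : ∀ (a : aLoc μ w) (P Q : MvPolynomial (Fin (M + 1)) ℂ), a * MvPolynomial.aeval μ Q =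
      MvPolynomial.aeval μ P → φ a * MvPolynomial.eval w Q = MvPolynomial.eval w P)
    (h2 : ∀ a, φ a ≠ 0 → (a : W) ≠ 0 ∧ (a : W)⁻¹ ∈ aLoc μ w) :
    (S.On fun j => φ ⟨x j, h.mem hw.1 j⟩) ∧ (fun j => φ ⟨x j, h.mem hw.1 j⟩) ≠ 0 := by
  have hz : S.On fun j => (⟨x j, h.mem hw.1 j⟩ : aLoc μ w) := by
    intro k P hP h0
    refine Subtype.ext ?_
    have h3 := MvPolynomial.comp_aeval_apply (fun j => (⟨x j, h.mem hw.1 j⟩ : aLoc μ w))
      (aLoc μ w).val P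
    exact h3.trans (h.gen.2.1 k P hP h0)
  refine ⟨hz.map φ, fun h0 => ?_⟩
  obtain ⟨O, hO1, hO2⟩ := adom (aLoc μ w) (AlgHom.id ℂ W) φ
  have hO : Ov ∅ O := ov_empty fun c => hO1 ⟨_, (aLoc μ w).algebraMap_mem c⟩
  obtain ⟨ρ, -, -, hρ⟩ := exists_pv hS hO h.gen.2.1 h.gen.ne
  have hm : ∀ i, μ i ∈ aLoc μ w := fun i => by
    have h3 := aeval_mem_aLoc μ w (MvPolynomial.X i)
    rwa [MvPolynomial.aeval_X] at h3
  have hp : PV O fun i => 1 * μ i := by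
    refine ⟨fun i => ?_, ?_⟩
    · change 1 * μ i ∈ O
      rw [one_mul]
      exact hO1 ⟨_, hm i⟩
    · obtain ⟨i, hi⟩ := Function.ne_iff.1 hw.1
      have h3 := h1 ⟨_, hm i⟩ (MvPolynomial.X i) 1 (by
        rw [map_one, mul_one, MvPolynomial.aeval_X])
      rw [map_one, mul_one, MvPolynomial.eval_X] at h3
      obtain ⟨h4, h5⟩ := h2 ⟨_, hm i⟩ (by rw [h3]; exact hi)
      have h6 : O.valuation (μ i) ≤ 1 := (O.valuation_le_one_iff _).2 (hO1 ⟨_, hm i⟩)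
      have h7 : O.valuation (μ i)⁻¹ ≤ 1 := (O.valuation_le_one_iff _).2 (hO1 ⟨_, h5⟩)
      have h8 : O.valuation (μ i) ≠ 0 := (map_ne_zero _).2 h4
      rw [map_inv₀, inv_le_one₀ (zero_lt_iff.2 h8)] at h7
      refine ⟨i, ?_⟩
      change O.valuation (1 * μ i) = 1
      rw [one_mul]
      exact le_antisymm h6 h7
  have hv := (h.pv hS hO hρ).unique hp
  obtain ⟨j, hj⟩ := hρ.2
  have hj' : O.valuation (ρ ^ S.w j * x j) = 1 := hj
  rw [map_mul, map_pow, hv, map_one, one_pow, one_mul] at hj'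
  have h9 : O.valuation (x j) < 1 := hO2 ⟨x j, h.mem hw.1 j⟩ (congrFun h0 j)
  exact h9.ne hj'

end Vale.Agent.P292
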