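import Vale.Agent.P292.Z.Conj
import Vale.Agent.P292.Z.Val

/-! P292 Z/Gal (TASK). The covering is trivial. `comb`: `inv` at the point `p = φ ∘ x` (`Nm.val`); `q (x)` has the value `q (p) ≠ 0`, so it is a unit of `aLoc`; `ξ = (q (x))⁻¹ • a (x) δ`, `der_eq_dot` (a derivation kills `cl ∅` by `der_kill`), `vec ∅ x s j = dv ∅ x (pm x j) s` by definition. `ham_reg`: `aLoc_reg`; `μ i = killK b μ (co a)` (`killK_coord`), `dv (pm x j) (μ i) = vec (μ i) j = X a (x j)` (`dv_spec`, `vec_tan`), and `X a` keeps `aLoc` (`aLoc_reg`, `Mom.der`, `aeval_adP`). `fixed`: `fix_pt`; `σ (P (μ)) = (P ∘ L) (μ)` with value `P (c w)`. Apply `σ` to `reg`: `p j * Q (c w) = P (c w)`, so `p j = c ^ w j * p j`, `c = 1` by `free`. So `σ` keeps `aLoc` and `φ`. The ideal spanned by the `σ s - s` lies in the kernel of `φ` and is stable under `H j = dv ∅ x (pm x j)` (`ham_reg`, `dv_map`, `aLoc_cl`, `Submodule.span_induction`), so under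 `X a` and the Euler field (`comb`); `aideal_bot`. Helper names start with `zga_`. -/

open Set Matrix

set_option linter.unusedSectionVars false

noncomputable section

namespace Vale.Agent.P292

open Vale.Agent.P271 Vale.Agent.P276

variable {G : Type} [LieRing G] [LieAlgebra ℂ G] {M : ℕ} {b : Module.Basis (Fin (M + 1)) ℂ G}
  {K : Type} [Field K] [Algebra ℂ K] {N n m : ℕ} {t : Fin (N + 1) → K} {S : Cn K N}
  {W : Type} [Field W] [Algebra ℂ W] [IsAlgClosed W] {x : Fin S.M → W} {μ : Fin (M + 1) → W}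
  {w : Fin (M + 1) → ℂ} {ι : K →ₐ[ℂ] W} {r : W} {x₀ : Fin (M + 1) → K}

theorem zga_cl (h : Nm b S n x μ) (hA : AOn μ w) {s : W} (hs : s ∈ aLoc μ w) :
    s ∈ cl (range x) := by
  refine cl_le ?_ (aLoc_cl hA hs)
  rintro _ ⟨i, rfl⟩
  have h1 := (h.wt i).1
  rwa [empty_union] at h1

theorem zga_X (hS : S.Ok t n m) (h : Nm b S n x μ) (hw : OnX μ w) (a : G) :
    IsReg (aLoc μ w) (S.dv ∅ x (S.vec ∅ x (killK b μ (co b W a)))) := by
  refine aLoc_reg (h.aOn hS hw) fun i => ?_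
  have h1 := h.mom.der a i
  rw [h1, zero_mul, zero_sub, ← aeval_adP]
  exact neg_mem (aeval_mem_aLoc μ w _)

theorem Nm.comb (hS : S.Ok t n m) (h : Nm b S n x μ) (hw : OnX μ w) {D : Derivation ℂ W W}
    (hD : ∀ j, D (x j) ∈ aLoc μ w) : ∃ ξ : Fin S.M → W, (∀ j, ξ j ∈ aLoc μ w) ∧
      ∀ s ∈ cl (range x), D s = ∑ j, ξ j * S.dv ∅ x (S.pm x j) s := by
  obtain ⟨φ, h1, h2⟩ := exists_aval (h.aOn hS hw)
  obtain ⟨hon, hne⟩ := h.val hS hw φ h1 h2
  obtain ⟨q, a, hq, ha⟩ := hS.inv ℂ _ hon hne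
  have e : ∀ P : MvPolynomial (Fin S.M) ℂ, MvPolynomial.aeval x P =
      ((MvPolynomial.aeval (fun j => (⟨x j, h.mem hw.1 j⟩ : aLoc μ w)) P : aLoc μ w) : W) :=
    fun P => (MvPolynomial.comp_aeval_apply (fun j => (⟨x j, h.mem hw.1 j⟩ : aLoc μ w))
      (aLoc μ w).val P).symm
  have hm : ∀ P : MvPolynomial (Fin S.M) ℂ, MvPolynomial.aeval x P ∈ aLoc μ w := fun P => by
    rw [e]
    exact SetLike.coe_mem _
  obtain ⟨q0, q1⟩ := h2 (MvPolynomial.aeval (fun j => (⟨x j, h.mem hw.1 j⟩ : aLoc μ w)) q) (by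
    rw [MvPolynomial.comp_aeval_apply]
    exact hq)
  rw [← e] at q0 q1
  have h3 := ha W x (fun j => D (x j)) h.gen.2.1 (h.gen.2.1.der D)
  have h4 : S.pm x *ᵥ ((MvPolynomial.aeval x q)⁻¹ •
      (a.map (MvPolynomial.aeval x) *ᵥ fun j => D (x j))) = fun j => D (x j) := by
    rw [Matrix.mulVec_smul, h3, smul_smul, inv_mul_cancel₀ q0, one_smul]
  refine ⟨fun j => -((MvPolynomial.aeval x q)⁻¹ •
    (a.map (MvPolynomial.aeval x) *ᵥ fun j => D (x j))) j, fun j => ?_, fun s hs => ?_⟩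
  · refine neg_mem (mul_mem q1 ?_)
    change ∑ k, MvPolynomial.aeval x (a j k) * D (x k) ∈ aLoc μ w
    exact sum_mem fun k _ => mul_mem (hm _) (hD k)
  · rw [der_eq_dot hS h.gen (der_kill fun _ h => absurd h (notMem_empty _))
      (by rwa [empty_union]) h4, dotProduct, ← Finset.sum_neg_distrib]
    exact Finset.sum_congr rfl fun j _ => (neg_mul _ _).symm

theorem Nm.ham_reg (hS : S.Ok t n m) (h : Nm b S n x μ) (hw : OnX μ w) (j : Fin S.M) :
    IsReg (aLoc μ w) (S.dv ∅ x (S.pm x j)) := by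
  have := h.kil
  refine aLoc_reg (h.aOn hS hw) fun i => ?_
  obtain ⟨a, ha⟩ := killK_coord (b := b) (R := W) i
  have h1 := zga_X hS h hw a (x j) (h.mem hw.1 j)
  rw [← ha μ, (dv_spec hS h.gen (vec_tan hS h.gen (h.wt i).1).1).2 j] at h1
  exact h1

theorem zga_comm (hS : S.Ok t n m) (h : Nm b S n x μ) {σ : W ≃ₐ[ℂ] W} (hσ : Fx (range x) σ)
    (j : Fin S.M) {s : W} (hs : s ∈ cl (range x)) :
    S.dv ∅ x (S.pm x j) (σ s) = σ (S.dv ∅ x (S.pm x j) s) := by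
  have h1 := vec_map hS h.gen σ (f := s) (by rwa [empty_union]) j
  have e : (fun i => σ (x i)) = x := funext fun i => hσ _ (mem_range_self i)
  rw [image_empty, e] at h1
  exact h1

theorem zga_stab (hS : S.Ok t n m) (h : Nm b S n x μ) (hw : OnX μ w) {I : Ideal (aLoc μ w)}
    (hI : ∀ j, ∀ s ∈ I, (⟨_, h.ham_reg hS hw j s s.2⟩ : aLoc μ w) ∈ I) {D : Derivation ℂ W W}
    (hD : ∀ j, D (x j) ∈ aLoc μ w) : ∀ s ∈ I, ∀ s' : aLoc μ w, (s' : W) = D s → s' ∈ I := by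
  intro s hs s' e
  obtain ⟨ξ, h1, h2⟩ := h.comb hS hw hD
  have e2 : s' = ∑ j, (⟨ξ j, h1 j⟩ : aLoc μ w) * ⟨_, h.ham_reg hS hw j s s.2⟩ := by
    refine Subtype.ext ?_
    rw [e, h2 s (zga_cl h (h.aOn hS hw) s.2), AddSubmonoidClass.coe_finsetSum]
    rfl
  rw [e2]
  exact I.sum_mem fun j _ => I.mul_mem_left _ (hI j s hs)

theorem Nm.fixed (hS : S.Ok t n m) (h : Nm b S n x μ) {σ : W ≃ₐ[ℂ] W} (hσ : Fx (range x) σ)
    (i : Fin (M + 1)) : σ (μ i) = μ i := by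
  have := h.kil
  obtain ⟨w, c, L, hw, hc, hL, hL'⟩ := h.fix_pt hS hσ
  have hA := h.aOn hS hw
  obtain ⟨φ, h1, h2⟩ := exists_aval hA
  obtain ⟨hon, hne⟩ := h.val hS hw φ h1 h2
  have a1 : ∀ P : MvPolynomial (Fin (M + 1)) ℂ, σ (MvPolynomial.aeval μ P) =
      MvPolynomial.aeval μ (MvPolynomial.aeval L P) := fun P => by
    rw [MvPolynomial.comp_aeval_apply L (MvPolynomial.aeval μ) P]
    refine (MvPolynomial.comp_aeval_apply μ (σ : W →ₐ[ℂ] W) P).trans ?_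
    exact congrArg (fun f => MvPolynomial.aeval f P) (funext hL)
  have a2 : ∀ P : MvPolynomial (Fin (M + 1)) ℂ, MvPolynomial.eval w (MvPolynomial.aeval L P) =
      MvPolynomial.aeval (fun i => c * w i) P := fun P =>
    (MvPolynomial.comp_aeval_apply L (MvPolynomial.aeval w) P).trans
      (congrArg (fun f => MvPolynomial.aeval f P) (funext hL'))
  have a3 : c = 1 := by
    refine hS.free ℂ _ c hon hne (funext fun j => ?_)
    obtain ⟨P, Q, hP, hQ, q0, e⟩ := h.reg w hw.1 j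
    have b1 := h1 ⟨x j, h.mem hw.1 j⟩ P Q e
    have b2 := h1 ⟨x j, h.mem hw.1 j⟩ (MvPolynomial.aeval L P) (MvPolynomial.aeval L Q) (by
      rw [← a1, ← a1, ← e, map_mul, hσ _ (mem_range_self j)])
    rw [a2, a2, aeval_smul_hom hP, aeval_smul_hom hQ, MvPolynomial.aeval_eq_eval, ← b1] at b2
    have b3 : c ^ S.w j * MvPolynomial.eval w Q ≠ 0 := mul_ne_zero (pow_ne_zero _ hc) q0
    refine mul_right_cancel₀ b3 ?_
    change c ^ S.w j * φ ⟨x j, h.mem hw.1 j⟩ * _ = _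
    rw [b2, two_mul, pow_add]
    ring
  have a4 : ∀ P : MvPolynomial (Fin (M + 1)) ℂ, MvPolynomial.eval w (MvPolynomial.aeval L P) =
      MvPolynomial.eval w P := fun P => by
    rw [a2, a3]
    simp only [one_mul, MvPolynomial.aeval_eq_eval]
  have a5 : ∀ s ∈ aLoc μ w, σ s ∈ aLoc μ w := fun s hs => by
    obtain ⟨P, Q, q0, e⟩ := aloc_rep hs
    refine Algebra.subset_adjoin ⟨MvPolynomial.aeval L P, MvPolynomial.aeval L Q, ?_, ?_⟩
    · rwa [a4]
    · rw [← a1, ← a1, ← e, map_mul]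
  have a6 : ∀ s : aLoc μ w, φ ⟨σ s, a5 s s.2⟩ = φ s := fun s => by
    obtain ⟨P, Q, q0, e⟩ := aloc_rep s.2
    have b1 := h1 s P Q e
    have b2 := h1 ⟨σ s, a5 s s.2⟩ (MvPolynomial.aeval L P) (MvPolynomial.aeval L Q) (by
      rw [← a1, ← a1, ← e, map_mul])
    rw [a4, a4, ← b1] at b2
    exact mul_right_cancel₀ q0 b2
  have hI : Ideal.span (range fun s : aLoc μ w => (⟨σ s, a5 s s.2⟩ : aLoc μ w) - s) ≠ ⊤ := by
    refine ne_top_of_le_ne_top (RingHom.ker_ne_top φ) (Ideal.span_le.2 ?_)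
    rintro _ ⟨s, rfl⟩
    change φ _ = 0
    rw [map_sub, a6, sub_self]
  have hH : ∀ j, ∀ s ∈ Ideal.span (range fun s : aLoc μ w => (⟨σ s, a5 s s.2⟩ : aLoc μ w) - s),
      (⟨_, h.ham_reg hS hw j s s.2⟩ : aLoc μ w) ∈
        Ideal.span (range fun s : aLoc μ w => (⟨σ s, a5 s s.2⟩ : aLoc μ w) - s) := by
    intro j s hs
    induction hs using Submodule.span_induction with
    | mem s hs =>
      obtain ⟨s, rfl⟩ := hs
      refine Ideal.subset_span ⟨⟨_, h.ham_reg hS hw j s s.2⟩, Subtype.ext ?_⟩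
      change σ (S.dv ∅ x (S.pm x j) s) - S.dv ∅ x (S.pm x j) s = S.dv ∅ x (S.pm x j) (σ s - s)
      rw [map_sub, zga_comm hS h hσ j (zga_cl h hA s.2)]
    | zero =>
      have e : (⟨_, h.ham_reg hS hw j (0 : aLoc μ w) (0 : aLoc μ w).2⟩ : aLoc μ w) = 0 :=
        Subtype.ext (map_zero _)
      rw [e]
      exact zero_mem _
    | add s s' _ _ i1 i2 =>
      have e : (⟨_, h.ham_reg hS hw j (s + s' : aLoc μ w) (s + s').2⟩ : aLoc μ w) =
          ⟨_, h.ham_reg hS hw j s s.2⟩ + ⟨_, h.ham_reg hS hw j s' s'.2⟩ :=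
        Subtype.ext (map_add _ _ _)
      rw [e]
      exact add_mem i1 i2
    | smul a s hs i1 =>
      have e : (⟨_, h.ham_reg hS hw j (a • s : aLoc μ w) (a • s).2⟩ : aLoc μ w) =
          a * ⟨_, h.ham_reg hS hw j s s.2⟩ + s * ⟨_, h.ham_reg hS hw j a a.2⟩ :=
        Subtype.ext (Derivation.leibniz _ (a : W) s)
      rw [e]
      exact add_mem (Ideal.mul_mem_left _ _ i1) (Ideal.mul_mem_right _ _ hs)
  have hb := h.mom.aideal_bot (h.eu hS).1 hw hI
    (fun a => zga_stab hS h hw hH fun j => zga_X hS h hw a (x j) (h.mem hw.1 j))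
    (zga_stab hS h hw hH fun j => by
      rw [(h.eu hS).2 j]
      exact mul_mem (natCast_mem _ _) (h.mem hw.1 j))
  have hm : μ i ∈ aLoc μ w := by
    have := aeval_mem_aLoc μ w (MvPolynomial.X i)
    rwa [MvPolynomial.aeval_X] at this
  have h5 : (⟨σ (μ i), a5 _ hm⟩ : aLoc μ w) - ⟨μ i, hm⟩ ∈
      Ideal.span (range fun s : aLoc μ w => (⟨σ s, a5 s s.2⟩ : aLoc μ w) - s) :=
    Ideal.subset_span ⟨⟨μ i, hm⟩, rfl⟩
  rw [hb, Ideal.mem_bot, sub_eq_zero] at h5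
  exact congrArg Subtype.val h5

end Vale.Agent.P292
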