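import Vale.Agent.P292.Z.Br

/-! P292 Z/Lie (TASK). `mem_ideal`: take `0 ≠ y ∈ I`; `φ ⬝ᵥ co y ≠ 0` by `li`; `∑ i, f (b i) • ⁅a, ⁅a, y⁆⁆ i = 0` (`brK_sum_left` twice, `co_lie`, `⁅b i, ⁅b j, y⁆⁆ ∈ I`). `killing`: no nonzero abelian ideal (`hasTrivialRadical_iff_no_abelian_ideals`, `HasTrivialRadical.instIsKilling`): if `I` is abelian, `z ↦ b.repr ⁅z, y⁆ i` kills `I`, so `⁅a, y⁆ = 0`, so `a = 0`. `simple`: if `I ≠ ⊥` and `I.killingCompl ≠ ⊥` (`isCompl_killingCompl`), every coordinate form is a sum of a form that kills `I` and a form that kills the complement, so `a = 0`; not abelian since `⁅a, ⁅a, y⁆⁆ ≠ 0`. `dual`: `κ (⁅a, ⁅a, w⁆⁆, w')` is symmetric (`killK_inv`, `brK_skew`): `(φ ⬝ᵥ w) κ (a, w') = (φ ⬝ᵥ w') κ (a, w)`; `killK_nondeg`. `der_const`: a transcendental element has a derivation with value `1` (`exists_der` with `Fin 1`). Helper names start with `zli_`. -/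

open Set Matrix

set_option linter.unusedSectionVars false

noncomputable section

namespace Vale.Agent.P292

open Vale.Agent.P271 Vale.Agent.P276

variable {G : Type} [LieRing G] [LieAlgebra ℂ G] {M : ℕ} {b : Module.Basis (Fin (M + 1)) ℂ G}
  {W : Type} [Field W] [Algebra ℂ W] {a φ : Fin (M + 1) → W}

theorem zli_dot (h : Ex0 b a φ) {y : G} (hy : y ≠ 0) : φ ⬝ᵥ co b W y ≠ 0 := by
  intro h0
  apply hy
  have h1 : ∑ i, b.repr y i • φ i = 0 := by
    rw [← h0, dotProduct]
    exact Finset.sum_congr rfl fun i _ => by rw [Algebra.smul_def, mul_comm]; rfl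
  have h2 := Fintype.linearIndependent_iff.1 h.li _ h1
  exact b.repr.map_eq_zero_iff.1 (Finsupp.ext h2)

theorem zli_ex {I : LieIdeal ℂ G} (hI : I ≠ ⊥) : ∃ y ∈ I, y ≠ 0 := by
  by_contra h0
  exact hI ((LieSubmodule.eq_bot_iff I).2 fun y hy => by_contra fun h1 => h0 ⟨y, hy, h1⟩)

theorem zli_zero (x : Fin (M + 1) → W) : brK b x 0 = 0 := by
  funext i
  simp [brK]

theorem zli_ne (h : Ex0 b a φ) {y : G} (hy : y ≠ 0) : brK b a (co b W y) ≠ 0 := by
  intro h0
  have : CharZero W := charZero_of_injective_algebraMap (algebraMap ℂ W).injective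
  have h1 := h.ext (co b W y)
  rw [h0, zli_zero] at h1
  rcases smul_eq_zero.1 h1.symm with h2 | h2
  · exact mul_ne_zero two_ne_zero (zli_dot h hy) h2
  · exact h.ne h2

theorem zli_span (I : LieIdeal ℂ G) (z : Fin (M + 1) → W) {x : Fin (M + 1) → W}
    (hx : x ∈ Submodule.span W (co b W '' (I : Set G))) :
    brK b z x ∈ Submodule.span W (co b W '' (I : Set G)) := by
  induction hx using Submodule.span_induction with
  | mem x hx =>
    obtain ⟨y, hy, rfl⟩ := hx
    rw [brK_sum_left]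
    refine Submodule.sum_mem _ fun i _ => Submodule.smul_mem _ _ ?_
    rw [← co_lie]
    exact Submodule.subset_span ⟨_, lie_mem_right ℂ G I _ _ hy, rfl⟩
  | zero => rw [zli_zero]; exact Submodule.zero_mem _
  | add x y _ _ h1 h2 => rw [brK_add_right]; exact Submodule.add_mem _ h1 h2
  | smul c x _ h1 => rw [brK_smul_right]; exact Submodule.smul_mem _ _ h1

theorem zli_kill (I : LieIdeal ℂ G) (f : G →ₗ[ℂ] ℂ) (hf : ∀ y ∈ I, f y = 0)
    {x : Fin (M + 1) → W} (hx : x ∈ Submodule.span W (co b W '' (I : Set G))) :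
    ∑ i, f (b i) • x i = 0 := by
  induction hx using Submodule.span_induction with
  | mem x hx =>
    obtain ⟨y, hy, rfl⟩ := hx
    have h1 : ∑ i, f (b i) * b.repr y i = f y := by
      conv_rhs => rw [← b.sum_repr y]
      rw [map_sum]
      exact Finset.sum_congr rfl fun i _ => by rw [map_smul, smul_eq_mul, mul_comm]
    have h2 : ∑ i, f (b i) • co b W y i = algebraMap ℂ W (∑ i, f (b i) * b.repr y i) := by
      rw [map_sum]
      exact Finset.sum_congr rfl fun i _ => by rw [Algebra.smul_def, map_mul]; rfl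
    rw [h2, h1, hf y hy, map_zero]
  | zero => simp
  | add x y _ _ h1 h2 => simp only [Pi.add_apply, smul_add, Finset.sum_add_distrib, h1, h2, add_zero]
  | smul c x _ h1 =>
    simp only [Pi.smul_apply, smul_comm _ c, ← Finset.smul_sum, h1, smul_zero]

theorem Ex0.mem_ideal (h : Ex0 b a φ) {I : LieIdeal ℂ G} (hI : I ≠ ⊥) (f : G →ₗ[ℂ] ℂ)
    (hf : ∀ y ∈ I, f y = 0) : ∑ i, f (b i) • a i = 0 := by
  have : CharZero W := charZero_of_injective_algebraMap (algebraMap ℂ W).injective
  obtain ⟨y, hy, hy0⟩ := zli_ex hI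
  have h1 : co b W y ∈ Submodule.span W (co b W '' (I : Set G)) :=
    Submodule.subset_span ⟨y, hy, rfl⟩
  have h2 := zli_span I a (zli_span I a h1)
  rw [h.ext] at h2
  have h3 := Submodule.smul_mem _ (2 * (φ ⬝ᵥ co b W y))⁻¹ h2
  rw [smul_smul, inv_mul_cancel₀ (mul_ne_zero two_ne_zero (zli_dot h hy0)), one_smul] at h3
  exact zli_kill I f hf h3

theorem Ex0.killing (h : Ex0 b a φ) : LieAlgebra.IsKilling ℂ G := by
  have : Module.Finite ℂ G := Module.Finite.of_basis b
  have : LieAlgebra.HasTrivialRadical ℂ G := by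
    rw [LieAlgebra.hasTrivialRadical_iff_no_abelian_ideals]
    intro I hI
    by_contra h0
    obtain ⟨y, hy, hy0⟩ := zli_ex h0
    apply zli_ne h hy0
    funext i
    have h1 := h.mem_ideal h0 (b.coord i ∘ₗ (-LieAlgebra.ad ℂ G y)) fun z hz => by
      have h2 : ⁅(⟨y, hy⟩ : I), (⟨z, hz⟩ : I)⁆ = 0 := trivial_lie_zero _ _ _ _
      have h3 : ⁅y, z⁆ = 0 := congrArg Subtype.val h2
      simp [h3]
    rw [brK_sum_left, Finset.sum_apply, Pi.zero_apply, ← h1]
    refine Finset.sum_congr rfl fun j _ => ?_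
    rw [← co_lie, ← lie_skew, Pi.smul_apply, smul_eq_mul, Algebra.smul_def, mul_comm]
    rfl
  infer_instance

theorem Ex0.simple (h : Ex0 b a φ) : LieAlgebra.IsSimple ℂ G := by
  have : Module.Finite ℂ G := Module.Finite.of_basis b
  have := h.killing
  refine ⟨fun I => ?_, fun hA => ?_⟩
  · by_contra h0
    rw [not_or] at h0
    have hc := I.isCompl_killingCompl
    have hJ : I.killingCompl ≠ ⊥ := by
      intro hJ
      rw [hJ] at hc
      exact h0.2 (eq_top_of_isCompl_bot hc)
    have hc' := LieSubmodule.isCompl_toSubmodule.2 hc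
    apply h.ne
    funext i
    have h1 := h.mem_ideal hJ (b.coord i ∘ₗ Submodule.projection _ _ hc') fun z hz => by
      rw [LinearMap.comp_apply, (Submodule.projection_apply_eq_zero_iff hc').2 hz, map_zero]
    have h2 := h.mem_ideal h0.1 (b.coord i ∘ₗ Submodule.projection _ _ hc'.symm) fun z hz => by
      rw [LinearMap.comp_apply, (Submodule.projection_apply_eq_zero_iff hc'.symm).2 hz, map_zero]
    have h3 : ∑ j, b.coord i (b j) • a j = 0 := by
      have h4 := congrArg₂ (· + ·) h1 h2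
      rw [add_zero, ← Finset.sum_add_distrib] at h4
      rw [← h4]
      refine Finset.sum_congr rfl fun j _ => ?_
      rw [← add_smul, LinearMap.comp_apply, LinearMap.comp_apply, ← map_add,
        Submodule.projection_add_projection_eq_self]
    simpa [Finsupp.single_apply] using h3
  · apply zli_ne h (b.ne_zero 0)
    funext i
    simp [brK, trivial_lie_zero]

theorem Ex0.dual (h : Ex0 b a φ) {ν : Fin (M + 1) → W} (hν : ∀ w, killK b ν w = φ ⬝ᵥ w) :
    ∃ c : W, c ≠ 0 ∧ a = c • ν := by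
  have : CharZero W := charZero_of_injective_algebraMap (algebraMap ℂ W).injective
  have := h.killing
  have hl : ∀ (c : W) (x y : Fin (M + 1) → W), killK b (c • x) y = c * killK b x y :=
    fun c x y => by rw [killK_symm, killK_smul_right, killK_symm]
  have h1 : ∀ w w', 2 * (φ ⬝ᵥ w) * killK b a w' = -killK b (brK b a w) (brK b a w') := by
    intro w w'
    rw [← hl, ← h.ext, brK_skew, ← killK_inv, ← neg_one_smul W, hl, neg_one_mul]
  have h2 : ∀ w w', (φ ⬝ᵥ w) * killK b a w' = (φ ⬝ᵥ w') * killK b a w := by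
    intro w w'
    have h3 := h1 w w'
    rw [killK_symm (brK b a w), ← h1] at h3
    apply mul_left_cancel₀ (two_ne_zero : (2 : W) ≠ 0)
    rw [← mul_assoc, ← mul_assoc, h3]
  have h0 := zli_dot h (b.ne_zero 0)
  have h4 : a = (killK b a (co b W (b 0)) / (φ ⬝ᵥ co b W (b 0))) • ν := by
    rw [← sub_eq_zero]
    apply killK_nondeg (b := b)
    intro i
    rw [sub_eq_add_neg, ← neg_smul, killK_symm, killK_add_right, killK_smul_right,
      killK_symm _ ν, hν, killK_symm _ a]
    field_simp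
    linear_combination h2 (co b W (b 0)) (co b W (b i))
  refine ⟨_, fun hc => h.ne ?_, h4⟩
  rw [h4, hc, zero_smul]

theorem der_const {c : W} (h : ∀ D : Derivation ℂ W W, D c = 0) : ∃ c' : ℂ, c = algebraMap ℂ W c' := by
  by_cases hc : IsAlgebraic ℂ c
  · obtain ⟨c', hc'⟩ := minpoly.mem_range_of_degree_eq_one ℂ c
      (IsAlgClosed.degree_eq_one_of_irreducible ℂ (minpoly.irreducible hc.isIntegral))
    exact ⟨c', hc'.symm⟩
  · have h1 : AlgebraicIndependent ℂ fun _ : Fin 1 => c :=
      algebraicIndependent_unique_type_iff.2 hc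
    obtain ⟨D, hD⟩ := exists_der h1
    have h2 := hD 0 0
    rw [h, if_pos rfl] at h2
    exact absurd h2 zero_ne_one

end Vale.Agent.P292
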