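import Vale.Agent.P292.Z.Defs
import Vale.Agent.P292.B.Main

/-! P292 Z/Reg (TASK). `disj_fun`: choose a basis `e` of the span of the `p k` (`Module.finBasis`, `exists_linearIndependent`), expand, `lin_disj`. `flow_poly`: induction on `k`; `pb Y x (a ⬝ᵥ f) g = ∑ i, a i * dv Y x (vec Y x (f i)) g` on `cl (Y ∪ range x)` (`vec_lin`, `dv_eq`, `dv_spec`), these derivations kill `a` and keep `cl (range x)` (`der_mem`, `vec_tan` for `∅`, `dv_mono`). `flow_reg`: both sides are sums over words `s : Fin k → Fin (M + 1)` (`Finset.prod_univ_sum`, `Fintype.piFinset`); choose `ℓ` with `ℓ ((w ⬝ᵥ f) ^ S.w j) = 1` (`Module.exists_dual_forall_apply_eq_zero`-like: `exists_extend`, `LinearMap.exists_leftInverse_of_injective`); `P = ∑ s, C (ℓ (p s)) * ∏ X (s i)`, `Q = (2 w)! * ∑ s, C (ℓ (∏ f (s i))) * ∏ X (s i)`; `rk Y + rk (range x) ≤ rk (range x ∪ Y)` from the two `GenO`. Helper names start with `zrg_`. -/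

open Set Matrix

set_option linter.unusedSectionVars false

noncomputable section

namespace Vale.Agent.P292

open Vale.Agent.P271 Vale.Agent.P276

variable {G : Type} [LieRing G] [LieAlgebra ℂ G] {M : ℕ} {b : Module.Basis (Fin (M + 1)) ℂ G}
  {K : Type} [Field K] [Algebra ℂ K] {N n m : ℕ} {t : Fin (N + 1) → K} {S : Cn K N}
  {W : Type} [Field W] [Algebra ℂ W] [IsAlgClosed W] {x : Fin S.M → W} {μ : Fin (M + 1) → W}
  {w : Fin (M + 1) → ℂ} {ι : K →ₐ[ℂ] W} {r : W} {x₀ : Fin (M + 1) → K}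
  {f : Fin (M + 1) → W} {cc : Fin (M + 1) → Fin (M + 1) → Fin (M + 1) → ℂ}

theorem disj_fun (hW : Big W) {A B : Set W} (hA : A.Finite) (hB : B.Finite)
    (h : rk A + rk B ≤ rk (A ∪ B)) {τ : Type} [Fintype τ] {p α : τ → W} (h1 : ∀ k, p k ∈ cl A)
    (h2 : ∀ k, α k ∈ cl B) (h0 : ∑ k, α k * p k = 0) (ℓ : W →ₗ[ℂ] ℂ) : ∑ k, ℓ (p k) • α k = 0 := by
  classical
  have hfin : Module.Finite ℂ (Submodule.span ℂ (range p)) :=
    Module.Finite.span_of_finite ℂ (finite_range p)
  obtain ⟨d, e⟩ : Σ d : ℕ, Module.Basis (Fin d) ℂ (Submodule.span ℂ (range p)) :=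
    ⟨_, Module.finBasis ℂ _⟩
  have hV : Submodule.span ℂ (range p) ≤ Subalgebra.toSubmodule (cl A).toSubalgebra :=
    Submodule.span_le.2 (range_subset_iff.2 h1)
  have hli : LinearIndependent ℂ fun i => (e i : W) :=
    e.linearIndependent.map' (Submodule.subtype _) (Submodule.ker_subtype _)
  have hp : ∀ k, ∃ c : Fin d → ℂ, p k = ∑ i, c i • (e i : W) := fun k => by
    have h3 := congrArg (Submodule.subtype _)
      (e.sum_repr ⟨p k, Submodule.subset_span (mem_range_self k)⟩)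
    rw [map_sum] at h3
    exact ⟨_, h3.symm⟩
  choose c hc using hp
  have ha : (fun i => ∑ k, c k i • α k) = 0 := by
    refine lin_disj hA hB h hli (fun i => hV (e i).2)
      (fun i => sum_mem fun k _ => (cl B).smul_mem (h2 k)) ?_
    rw [← h0]
    simp only [Finset.sum_mul]
    rw [Finset.sum_comm]
    refine Finset.sum_congr rfl fun k _ => ?_
    rw [hc k, Finset.mul_sum]
    simp only [smul_mul_assoc, mul_smul_comm]
  calc ∑ k, ℓ (p k) • α k = ∑ k, ∑ i, ℓ (e i) • c k i • α k := by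
        refine Finset.sum_congr rfl fun k _ => ?_
        rw [hc k, map_sum, Finset.sum_smul]
        simp only [map_smul, smul_smul, smul_eq_mul, mul_comm]
    _ = ∑ i, ℓ (e i) • ∑ k, c k i • α k := by
        rw [Finset.sum_comm]
        simp only [Finset.smul_sum]
    _ = 0 := Finset.sum_eq_zero fun i _ => by
        rw [congrFun ha i, Pi.zero_apply, smul_zero]

theorem zrg_sum {τ : Type} [Fintype τ] (D : τ → Derivation ℂ W W) (g : W) :
    (∑ i, D i) g = ∑ i, D i g := by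
  have h := congrFun (map_sum Derivation.coeFnAddMonoidHom D Finset.univ) g
  rw [Finset.sum_apply] at h
  exact h

theorem zrg_step (hS : S.Ok t n m) (h : S.Mom n x f cc) {Y : Set W} (hY : S.GenO n Y x)
    {a : Fin (M + 1) → W} (ha : range a ⊆ cl Y) :
    ∃ (F : Derivation ℂ W W) (D : Fin (M + 1) → Derivation ℂ W W), S.pb Y x (a ⬝ᵥ f) = F ∧
      (∀ g ∈ cl Y, F g = 0) ∧ (∀ i, ∀ g ∈ cl (range x), D i g ∈ cl (range x)) ∧
      ∀ g ∈ cl (range x), F g = ∑ i, a i * D i g := by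
  have ha' : ∀ i, a i ∈ cl Y := fun i => ha (mem_range_self i)
  have hf0 : ∀ i, f i ∈ cl (∅ ∪ range x) := fun i => (h.wt i).1
  have hfY : ∀ i, f i ∈ cl (Y ∪ range x) := fun i =>
    cl_mono (union_subset_union_left _ (empty_subset _)) (hf0 i)
  have haf : a ⬝ᵥ f ∈ cl (Y ∪ range x) :=
    sum_mem fun i _ => mul_mem (cl_mono subset_union_left (ha' i)) (hfY i)
  have hD := fun i => dv_spec hS hY (vec_tan hS hY (hfY i)).1
  have hF := dv_spec hS hY (vec_tan hS hY haf).1
  refine ⟨S.dv Y x (S.vec Y x (a ⬝ᵥ f)), fun i => S.dv Y x (S.vec Y x (f i)), rfl, hF.1,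
    fun i => der_mem ?_, ?_⟩
  · rintro _ ⟨l, rfl⟩
    have h3 := (vec_tan hS h.gen (hf0 i)).2 l
    rw [empty_union] at h3
    rw [(hD i).2 l]
    have h4 : S.vec Y x (f i) l = S.vec ∅ x (f i) l :=
      dv_mono hS hY finite_empty (empty_subset _) (hS.tanp W x hY.2.1 l) (hf0 i)
    rw [h4]
    exact h3
  · have h5 : ∀ g ∈ cl (range x), (S.dv Y x (S.vec Y x (a ⬝ᵥ f)) -
        ∑ i, a i • S.dv Y x (S.vec Y x (f i))) g = 0 := by
      refine der_kill ?_
      rintro _ ⟨l, rfl⟩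
      have h6 := (dv_spec hS hY (hS.tanp W x hY.2.1 l)).1
      rw [Derivation.sub_apply, hF.2 l, zrg_sum, sub_eq_zero]
      change S.dv Y x (S.pm x l) (∑ i, a i * f i) = _
      rw [map_sum]
      refine Finset.sum_congr rfl fun i _ => ?_
      rw [Derivation.leibniz, h6 _ (ha' i), smul_zero, add_zero, Derivation.smul_apply, (hD i).2 l]
      rfl
    intro g hg
    have h7 := h5 g hg
    rw [Derivation.sub_apply, zrg_sum, sub_eq_zero] at h7
    exact h7

theorem flow_poly (hS : S.Ok t n m) (h : S.Mom n x f cc) {Y : Set W} (hY : S.GenO n Y x)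
    {a : Fin (M + 1) → W} (ha : range a ⊆ cl Y) (j : Fin S.M) (k : ℕ) :
    ∃ p : (Fin k → Fin (M + 1)) → W, (∀ s, p s ∈ cl (range x)) ∧
      (S.pb Y x (a ⬝ᵥ f))^[k] (x j) = ∑ s, (∏ i, a (s i)) * p s := by
  obtain ⟨F, D, hF, h1, h2, h3⟩ := zrg_step hS h hY ha
  rw [hF]
  induction k with
  | zero => exact ⟨fun _ => x j, fun _ => subset_cl _ (mem_range_self j), by simp⟩
  | succ k ih =>
    obtain ⟨p, hp, he⟩ := ih
    refine ⟨fun s => D (s 0) (p (Fin.tail s)), fun s => h2 _ _ (hp _), ?_⟩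
    rw [Function.iterate_succ_apply', he, map_sum,
      ← (Fin.consEquiv fun _ => Fin (M + 1)).sum_comp, Fintype.sum_prod_type, Finset.sum_comm]
    refine Finset.sum_congr rfl fun s _ => ?_
    rw [Derivation.leibniz, h1 _ (prod_mem fun i _ => ha (mem_range_self (s i))), smul_zero,
      add_zero, h3 _ (hp s), smul_eq_mul, Finset.mul_sum]
    refine Finset.sum_congr rfl fun l _ => ?_
    simp only [Fin.consEquiv, Equiv.coe_fn_mk, Fin.prod_univ_succ, Fin.cons_zero, Fin.cons_succ,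
      Fin.tail_cons]
    ring

theorem zrg_hom {σ : Type} [Fintype σ] (k : ℕ) (c : (Fin k → σ) → ℂ) :
    (∑ s : Fin k → σ, MvPolynomial.C (c s) * ∏ i, MvPolynomial.X (s i) :
      MvPolynomial σ ℂ).IsHomogeneous k := by
  refine MvPolynomial.IsHomogeneous.sum _ _ _ fun s _ => ?_
  have h := MvPolynomial.IsHomogeneous.prod (R := ℂ) Finset.univ (fun i => MvPolynomial.X (s i))
    (fun _ => 1) fun i _ => MvPolynomial.isHomogeneous_X ℂ (s i)
  rw [Finset.sum_const, Finset.card_univ, Fintype.card_fin, smul_eq_mul, mul_one] at h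
  exact h.C_mul _

theorem zrg_aeval {σ : Type} [Fintype σ] (k : ℕ) (c : (Fin k → σ) → ℂ) (a : σ → W) :
    MvPolynomial.aeval a (∑ s : Fin k → σ, MvPolynomial.C (c s) * ∏ i, MvPolynomial.X (s i) :
      MvPolynomial σ ℂ) = ∑ s : Fin k → σ, c s • ∏ i, a (s i) := by
  rw [map_sum]
  refine Finset.sum_congr rfl fun s _ => ?_
  rw [map_mul, map_prod, MvPolynomial.aeval_C, Algebra.smul_def]
  simp only [MvPolynomial.aeval_X]

theorem flow_reg (hS : S.Ok t n m) (hW : Big W) (h : S.Mom n x f cc) {Y : Set W} (hY : S.GenO n Y x)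
    {a : Fin (M + 1) → W} (ha : range a ⊆ cl Y) {y : W} (hy : y ∈ cl Y) (j : Fin S.M)
    (he : (S.pb Y x (a ⬝ᵥ f))^[2 * S.w j] (x j) =
      ((2 * S.w j).factorial : W) * (a ⬝ᵥ f) ^ S.w j * y) (hw : w ≠ 0) :
    ∃ P Q : MvPolynomial (Fin (M + 1)) ℂ, P.IsHomogeneous (2 * S.w j) ∧ Q.IsHomogeneous (S.w j) ∧
      MvPolynomial.eval w Q ≠ 0 ∧ y * MvPolynomial.aeval a Q = MvPolynomial.aeval a P := by
  obtain ⟨p, hp, h1⟩ := flow_poly hS h hY ha j (2 * S.w j)
  rw [h1] at he
  generalize S.w j = k at *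
  have ha' : ∀ i, a i ∈ cl Y := fun i => ha (mem_range_self i)
  have hf0 : ∀ i, f i ∈ cl (range x) := fun i => by
    have h2 := (h.wt i).1
    rwa [empty_union] at h2
  have hc : (∑ i, w i • f i) ^ k ≠ 0 :=
    pow_ne_zero _ fun h2 => hw (funext (Fintype.linearIndependent_iff.1 h.li w h2))
  obtain ⟨ℓ, hℓ⟩ : ∃ ℓ : W →ₗ[ℂ] ℂ, ℓ ((∑ i, w i • f i) ^ k) ≠ 0 := by
    by_contra h2
    exact hc ((Module.forall_dual_apply_eq_zero_iff ℂ _).1 fun φ =>
      by_contra fun h3 => h2 ⟨φ, h3⟩)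
  have hr : rk (range x) + rk Y ≤ rk (range x ∪ Y) := by
    have h2 := rk_on hS hY.2.1
    rw [union_comm, hY.2.2]
    omega
  have h3 := disj_fun hW (finite_range x) hY.1 hr
    (τ := (Fin (2 * k) → Fin (M + 1)) ⊕ (Fin k → Fin (M + 1)))
    (p := Sum.elim p fun s => ∏ i, f (s i))
    (α := Sum.elim (fun s => ∏ i, a (s i))
      fun s => -(((2 * k).factorial : W) * y * ∏ i, a (s i)))
    (by
      rintro (s | s)
      · exact hp s
      · exact prod_mem fun i _ => hf0 _)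
    (by
      rintro (s | s)
      · exact prod_mem fun i _ => ha' _
      · exact neg_mem (mul_mem (mul_mem (natCast_mem _ _) hy) (prod_mem fun i _ => ha' _)))
    (by
      rw [Fintype.sum_sum_type]
      simp only [Sum.elim_inl, Sum.elim_inr]
      rw [he, dotProduct, Fintype.sum_pow, Finset.mul_sum, Finset.sum_mul,
        ← Finset.sum_add_distrib]
      refine Finset.sum_eq_zero fun s _ => ?_
      rw [Finset.prod_mul_distrib]
      ring) ℓ
  refine ⟨_, _, zrg_hom _ fun s => ℓ (p s),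
    zrg_hom _ fun s => ((2 * k).factorial : ℂ) * ℓ (∏ i, f (s i)), ?_, ?_⟩
  · have h4 : MvPolynomial.eval w (∑ s : Fin k → Fin (M + 1),
        MvPolynomial.C (((2 * k).factorial : ℂ) * ℓ (∏ i, f (s i))) * ∏ i, MvPolynomial.X (s i)) =
        ((2 * k).factorial : ℂ) * ℓ ((∑ i, w i • f i) ^ k) := by
      rw [Fintype.sum_pow, map_sum, map_sum, Finset.mul_sum]
      refine Finset.sum_congr rfl fun s _ => ?_
      rw [Finset.prod_smul, map_smul, map_mul, MvPolynomial.eval_C, smul_eq_mul,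
        MvPolynomial.eval_prod]
      simp only [MvPolynomial.eval_X]
      ring
    rw [h4]
    exact mul_ne_zero (Nat.cast_ne_zero.2 (Nat.factorial_ne_zero _)) hℓ
  · rw [Fintype.sum_sum_type] at h3
    simp only [Sum.elim_inl, Sum.elim_inr, smul_neg, Finset.sum_neg_distrib, ← sub_eq_add_neg,
      sub_eq_zero] at h3
    rw [zrg_aeval, zrg_aeval, h3, Finset.mul_sum]
    refine Finset.sum_congr rfl fun s _ => ?_
    simp only [Algebra.smul_def, map_mul, map_natCast]
    ring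

end Vale.Agent.P292
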