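import Vale.Agent.P292.Z.Alg
import Vale.Agent.P292.Z.Reg

/-! P292 Z/Nm (TASK). `exists_g`, `ext`, `brK_lc` give `Ex0` (`η ∘ f` is independent); `killK_surj`, `killK_sum`, `co_basis` give `μ`; `killK b μ (co (b i)) = f i`. `wt`, `bdd`: `μ i` is a complex combination of the `f k` (`killK_coord`). `gal`: `Submodule.mem_span_range_iff_exists_fun`. `reg`: `flow_reg`, `mom_const`, `aeval_smul_hom`, apply `η.symm`, put the powers of `c` into `P` and `Q`. Helper names start with `znm_`. -/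

open Set Matrix

set_option linter.unusedSectionVars false

noncomputable section

namespace Vale.Agent.P292

open Vale.Agent.P271 Vale.Agent.P276

variable {G : Type} [LieRing G] [LieAlgebra ℂ G] {M : ℕ} {b : Module.Basis (Fin (M + 1)) ℂ G}
  {K : Type} [Field K] [Algebra ℂ K] {N n m : ℕ} {t : Fin (N + 1) → K} {S : Cn K N}
  {W : Type} [Field W] [Algebra ℂ W] [IsAlgClosed W] {x : Fin S.M → W} {μ : Fin (M + 1) → W}
  {w : Fin (M + 1) → ℂ} {ι : K →ₐ[ℂ] W} {r : W} {x₀ : Fin (M + 1) → K}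
  {f : Fin (M + 1) → W} {cc : Fin (M + 1) → Fin (M + 1) → Fin (M + 1) → ℂ}

theorem znm_dot (hμ : ∀ z, killK b μ z = f ⬝ᵥ z) (a : G) :
    killK b μ (co b W a) = ∑ k, b.repr a k • f k := by
  rw [hμ]
  refine Finset.sum_congr rfl fun k _ => ?_
  rw [Algebra.smul_def, mul_comm]
  rfl

theorem znm_coord [LieAlgebra.IsKilling ℂ G] (hμ : ∀ z, killK b μ z = f ⬝ᵥ z) (i : Fin (M + 1)) :
    ∃ c : Fin (M + 1) → ℂ, μ i = ∑ k, c k • f k := by
  obtain ⟨a, ha⟩ := killK_coord (b := b) (R := W) i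
  exact ⟨fun k => b.repr a k, (ha μ).trans (znm_dot hμ a)⟩

theorem znm_basis (hμ : ∀ z, killK b μ z = f ⬝ᵥ z) (i : Fin (M + 1)) :
    killK b μ (co b W (b i)) = f i := by
  rw [hμ, co_basis, dotProduct_single, mul_one]

theorem znm_mu [LieAlgebra.IsKilling ℂ G] (f : Fin (M + 1) → W) :
    ∃ μ : Fin (M + 1) → W, ∀ z, killK b μ z = f ⬝ᵥ z := by
  obtain ⟨μ, hμ⟩ := killK_surj (b := b) f
  refine ⟨μ, fun z => ?_⟩
  rw [killK_sum]
  refine Finset.sum_congr rfl fun k _ => ?_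
  rw [hμ, mul_comm]

theorem znm_wt (h : S.Mom n x f cc) (c : Fin (M + 1) → ℂ) : S.Wt ∅ x 1 (∑ k, c k • f k) := by
  refine ⟨sum_mem fun k _ => ?_, ?_⟩
  · rw [Algebra.smul_def]
    exact mul_mem (IntermediateField.algebraMap_mem _ _) (h.wt k).1
  · rw [map_sum, Finset.mul_sum]
    refine Finset.sum_congr rfl fun k _ => ?_
    rw [Derivation.map_smul, (h.wt k).2, mul_smul_comm]

theorem znm_gal (h : S.Mom n x f cc) (hμ : ∀ z, killK b μ z = f ⬝ᵥ z) (θ : W ≃ₐ[ℂ] W)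
    (hθ : Fx (range x) θ) (a : G) :
    ∃ a', killK b μ (co b W a') = θ (killK b μ (co b W a)) := by
  have h1 : θ (killK b μ (co b W a)) ∈ Submodule.span ℂ (range f) := by
    rw [znm_dot hμ, map_sum]
    refine Submodule.sum_mem _ fun k _ => ?_
    rw [map_smul]
    exact Submodule.smul_mem _ _ (h.gal θ hθ k)
  obtain ⟨c, hc⟩ := (Submodule.mem_span_range_iff_exists_fun ℂ).1 h1
  refine ⟨b.equivFun.symm c, ?_⟩
  rw [← hc, hμ, co_symm]
  refine Finset.sum_congr rfl fun k _ => ?_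
  rw [Algebra.smul_def, mul_comm]

theorem znm_bdd (h : S.Mom n x f cc) (c : Fin (M + 1) → ℂ) (O : ValuationSubring W) (hO : Ov ∅ O)
    (ρ : W) (hρ : PV O (S.sc ρ x)) : ρ * ∑ k, c k • f k ∈ O := by
  rw [Finset.mul_sum]
  refine sum_mem fun k _ => ?_
  rw [mul_smul_comm, Algebra.smul_def]
  exact mul_mem (hO _ (IntermediateField.algebraMap_mem _ _)) (h.bdd O hO ρ hρ k)

theorem znm_reg {a : Fin (M + 1) → W} {η : W ≃ₐ[ℂ] W} {c : ℂ} (hc : c ≠ 0)
    (ha : ∀ i, a i = algebraMap ℂ W c * η (μ i)) {y : W} {d e : ℕ}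
    {P Q : MvPolynomial (Fin (M + 1)) ℂ} (hP : P.IsHomogeneous d) (hQ : Q.IsHomogeneous e)
    (hw : MvPolynomial.eval w Q ≠ 0)
    (he : η y * MvPolynomial.aeval a Q = MvPolynomial.aeval a P) :
    ∃ P Q : MvPolynomial (Fin (M + 1)) ℂ, P.IsHomogeneous d ∧ Q.IsHomogeneous e ∧
      MvPolynomial.eval w Q ≠ 0 ∧ y * MvPolynomial.aeval μ Q = MvPolynomial.aeval μ P := by
  refine ⟨MvPolynomial.C (c ^ d) * P, MvPolynomial.C (c ^ e) * Q, hP.C_mul _, hQ.C_mul _, ?_, ?_⟩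
  · rw [map_mul, MvPolynomial.eval_C]
    exact mul_ne_zero (pow_ne_zero _ hc) hw
  · have h1 : ∀ T : MvPolynomial (Fin (M + 1)) ℂ,
        MvPolynomial.aeval (fun i => η (μ i)) T = η (MvPolynomial.aeval μ T) := fun T =>
      (MvPolynomial.comp_aeval_apply μ (η : W →ₐ[ℂ] W) T).symm
    rw [funext ha, aeval_smul_hom hP, aeval_smul_hom hQ, h1, h1] at he
    apply η.injective
    simp only [map_mul, MvPolynomial.aeval_C, map_pow, AlgEquiv.commutes]
    exact he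

theorem exists_nm (hS : S.Ok t n m) (hW : Big W) (h : S.Mom n x f cc) : ∃ (G : Type) (_ : LieRing G)
    (_ : LieAlgebra ℂ G) (b : Module.Basis (Fin (M + 1)) ℂ G) (μ : Fin (M + 1) → W),
      Nm b S n x μ := by
  obtain ⟨G, i1, i2, b, hb⟩ := exists_g hS h
  obtain ⟨a, η, Y, ha0, hext, hY, haY, hy, he⟩ := h.ext
  have ha : Ex0 b a fun i => η (f i) := by
    refine ⟨ha0, ?_, fun w => ?_⟩
    · exact h.li.map' η.toLinearEquiv.toLinearMap (LinearEquiv.ker _)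
    · rw [brK_lc hb, brK_lc hb]
      exact hext w
  have := ha.killing
  obtain ⟨μ, hμ⟩ := znm_mu (b := b) f
  refine ⟨G, i1, i2, b, μ, h.gen, ha.killing, ha.simple, mom_mom hS h hb ha hμ, fun i => ?_,
    znm_gal h hμ, fun δ hδ => ?_, fun O hO ρ hρ i => ?_, fun w hw j => ?_⟩
  · obtain ⟨c, hc⟩ := znm_coord hμ i
    rw [hc]
    exact znm_wt h c
  · obtain ⟨z, hz⟩ := (Submodule.mem_span_range_iff_exists_fun W).1 (h.span δ hδ)
    refine ⟨z, ?_⟩
    rw [← hz]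
    refine Finset.sum_congr rfl fun k _ => ?_
    rw [znm_basis hμ]
  · obtain ⟨c, hc⟩ := znm_coord hμ i
    rw [hc]
    exact znm_bdd h c O hO ρ hρ
  · obtain ⟨P, Q, hP, hQ, h1, h2⟩ := flow_reg hS hW h hY haY (hy j) j (he j) hw
    obtain ⟨c, hc, hac⟩ := mom_const hS h hb ha hμ
    exact znm_reg hc hac hP hQ h1 h2

end Vale.Agent.P292
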