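import Vale.Agent.P292.Z.Ext
import Vale.Agent.P292.Z.Exp

/-! P292 Z/Orb (TASK). The closure of `x` is the orbit. `isExt`: the cubic forms `⁅X, ⁅X, a⁆⁆ i * X j - ⁅X, ⁅X, a⁆⁆ j * X i` vanish at `x`, so at `w`. `step`: `stab` for the forms of degree `k` that vanish at `x` (`der_aeval`, `dl_hom`); `y' ≠ 0` by `steps_aut`. `third`: `exists_kform`, `Mom.inj`, `exists_onX` for the product. `reach`: `third`, `IsExt.reach` twice, `steps_smul`. `onX_ext`: `third`, `IsExt.reach` from the third point to `e`, `step`, `onX_smul`. Helper names start with `zor_`. -/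

set_option linter.unusedSectionVars false

noncomputable section

namespace Vale.Agent.P292

open Vale.Agent.P271 Vale.Agent.P276

variable {G : Type} [LieRing G] [LieAlgebra ℂ G] {M : ℕ} {b : Module.Basis (Fin (M + 1)) ℂ G}
  {Ω : Type} [Field Ω] [Algebra ℂ Ω] {X : G → Derivation ℂ Ω Ω} {lam : G → Ω}
  {x : Fin (M + 1) → Ω} {w : Fin (M + 1) → ℂ}
  [LieAlgebra.IsKilling ℂ G]

theorem zor_quad (b : Module.Basis (Fin (M + 1)) ℂ G) (a : G) (i : Fin (M + 1)) :
    ∃ Q : MvPolynomial (Fin (M + 1)) ℂ, Q.IsHomogeneous 2 ∧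
      ∀ (R : Type) [Field R] [Algebra ℂ R] (x : Fin (M + 1) → R),
        MvPolynomial.aeval x Q = brK b x (brK b x (co b R a)) i := by
  refine ⟨∑ j, ∑ k, MvPolynomial.C (b.repr ⁅b j, b k⁆ i) * (MvPolynomial.X j * -adP b a k), ?_,
    fun R _ _ x => ?_⟩
  · refine MvPolynomial.IsHomogeneous.sum _ _ _ fun j _ =>
      MvPolynomial.IsHomogeneous.sum _ _ _ fun k _ => ?_
    exact ((MvPolynomial.isHomogeneous_X ℂ j).mul (adP_hom a k).neg).C_mul _
  · rw [brK_skew x (co b R a), brK]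
    simp only [map_sum, map_mul, map_neg, MvPolynomial.aeval_C, MvPolynomial.aeval_X, aeval_adP,
      Algebra.smul_def, Pi.neg_apply]

theorem zor_ev (w : Fin (M + 1) → ℂ) (P : MvPolynomial (Fin (M + 1)) ℂ) :
    MvPolynomial.eval w P = MvPolynomial.aeval w P := rfl

theorem zor_co (w : Fin (M + 1) → ℂ) : co b ℂ (b.equivFun.symm w) = w := by
  rw [co_self, LinearEquiv.apply_symm_apply]

theorem zor_comm (b : Module.Basis (Fin (M + 1)) ℂ G) (a a' : G) :
    killingForm ℂ G a a' = killingForm ℂ G a' a := by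
  have h1 := co_kill (b := b) (R := ℂ) a a'
  rw [killK_symm, co_kill] at h1
  exact h1.symm

theorem Mom.isExt (h : Mom b X lam x) (hw : OnX x w) : IsExt (b.equivFun.symm w) := by
  intro a
  obtain ⟨c, -, hc⟩ := h.ext
  choose Q hQ hq using zor_quad b a
  obtain ⟨l, hl⟩ := Function.ne_iff.1 hw.1
  have hl' : w l ≠ 0 := hl
  have h1 : ∀ i, MvPolynomial.eval w (Q i) =
      b.equivFun ⁅b.equivFun.symm w, ⁅b.equivFun.symm w, a⁆⁆ i := fun i => by
    rw [zor_ev, hq, ← co_self, co_lie, co_lie, zor_co]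
  have h2 : ∀ i, MvPolynomial.eval w (Q i * MvPolynomial.X l - Q l * MvPolynomial.X i) = 0 :=
    fun i => by
      refine hw.2 3 _ (((hQ i).mul (MvPolynomial.isHomogeneous_X ℂ l)).sub
        ((hQ l).mul (MvPolynomial.isHomogeneous_X ℂ i))) ?_
      simp only [map_sub, map_mul, MvPolynomial.aeval_X, hq, hc, Pi.smul_apply, smul_eq_mul]
      ring
  refine ⟨MvPolynomial.eval w (Q l) / w l, b.equivFun.injective (funext fun i => ?_)⟩
  have h3 := h2 i
  simp only [map_sub, map_mul, MvPolynomial.eval_X] at h3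
  rw [← h1, map_smul, LinearEquiv.apply_symm_apply, Pi.smul_apply, smul_eq_mul]
  field_simp
  linear_combination h3

theorem Mom.step (h : Mom b X lam x) {y y' : G} (hy : OnX x (b.equivFun y))
    (hs : Relation.ReflTransGen AdStep y y') : OnX x (b.equivFun y') := by
  obtain ⟨s, hs'⟩ := steps_aut hs
  refine ⟨fun h0 => hy.1 ?_, fun k P hP h0 => ?_⟩
  · have h1 : y' = 0 := b.equivFun.injective (h0.trans (map_zero _).symm)
    have h2 : y = 0 := s.injective ((hs'.symm.trans h1).trans (map_zero _).symm)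
    rw [h2, map_zero]
  · refine stab (b := b) (MvPolynomial.homogeneousSubmodule _ ℂ k ⊓
      LinearMap.ker (MvPolynomial.aeval x).toLinearMap) (fun a Q hQ => ⟨dl_hom a hQ.1, ?_⟩)
      (fun Q hQ => hy.2 k Q hQ.1 hQ.2) hs P ⟨hP, h0⟩
    have h1 : MvPolynomial.aeval x Q = 0 := hQ.2
    have h2 := h.der_aeval a hQ.1
    rw [h1, map_zero, mul_zero, zero_sub] at h2
    exact neg_eq_zero.1 h2.symm

theorem Mom.third (h : Mom b X lam x) {e e' : G} (he : e ≠ 0) (he' : e' ≠ 0) :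
    ∃ z, OnX x (b.equivFun z) ∧ killingForm ℂ G e z ≠ 0 ∧ killingForm ℂ G e' z ≠ 0 := by
  obtain ⟨P, hP, hp⟩ := exists_kform (b := b) e
  obtain ⟨P', hP', hp'⟩ := exists_kform (b := b) e'
  obtain ⟨w, hw, h1⟩ := exists_onX h.ne (hP.mul hP') (by
    rw [map_mul, hp, hp']
    exact mul_ne_zero (fun h0 => he (h.inj _ h0)) fun h0 => he' (h.inj _ h0))
  rw [zor_ev, map_mul, hp, hp', ← zor_co (b := b) w, co_kill, co_kill] at h1
  refine ⟨b.equivFun.symm w, by rwa [LinearEquiv.apply_symm_apply], ?_, ?_⟩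
  · rw [zor_comm b]
    exact left_ne_zero_of_mul h1
  · rw [zor_comm b]
    exact right_ne_zero_of_mul h1

theorem Mom.reach (h : Mom b X lam x) {e : G} (he : e ≠ 0) (h1 : IsExt e) (hw : OnX x w) :
    ∃ (c : ℂ) (y : G), c ≠ 0 ∧ Relation.ReflTransGen AdStep e y ∧ b.equivFun.symm w = c • y := by
  have := Module.Finite.of_basis b
  have he' : b.equivFun.symm w ≠ 0 := fun h0 =>
    hw.1 (b.equivFun.symm.injective (h0.trans (map_zero _).symm))
  obtain ⟨z, hz, k1, k2⟩ := h.third he he'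
  have hz' : IsExt z := by simpa only [LinearEquiv.symm_apply_apply] using h.isExt hz
  obtain ⟨c, y, hc, s1, rfl⟩ := h1.reach hz' k1
  obtain ⟨c', y', hc', s2, h2⟩ := hz'.reach (h.isExt hw) (by rwa [zor_comm b])
  have s3 := steps_smul s2 c⁻¹
  rw [inv_smul_smul₀ hc] at s3
  refine ⟨c' * c, c⁻¹ • y', mul_ne_zero hc' hc, s1.trans s3, ?_⟩
  rw [h2, mul_smul, smul_inv_smul₀ hc]

theorem Mom.onX_ext (h : Mom b X lam x) {e : G} (he : e ≠ 0) (h1 : IsExt e) :
    OnX x (b.equivFun e) := by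
  have := Module.Finite.of_basis b
  obtain ⟨z, hz, k1, -⟩ := h.third he he
  have hz' : IsExt z := by simpa only [LinearEquiv.symm_apply_apply] using h.isExt hz
  obtain ⟨c, y, hc, s1, h2⟩ := hz'.reach h1 (by rwa [zor_comm b])
  rw [h2, map_smul]
  exact onX_smul (h.step hz s1) hc

theorem Mom.orbit (h : Mom b X lam x) : ∃ e : G, e ≠ 0 ∧ IsNilpotent (LieAlgebra.ad ℂ G e) ∧
    ∀ w, OnX x w ↔ ∃ (c : ℂ) (y : G), c ≠ 0 ∧ Relation.ReflTransGen AdStep e y ∧
      b.equivFun.symm w = c • y := by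
  obtain ⟨w₀, hw, -⟩ := exists_onX h.ne (MvPolynomial.isHomogeneous_one _ ℂ) (by simp)
  have he : b.equivFun.symm w₀ ≠ 0 := fun h0 =>
    hw.1 (b.equivFun.symm.injective (h0.trans (map_zero _).symm))
  refine ⟨_, he, ⟨3, (h.isExt hw).cube⟩, fun w => ⟨h.reach he (h.isExt hw), ?_⟩⟩
  rintro ⟨c, y, hc, s, h1⟩
  rw [b.equivFun.symm_apply_eq.1 h1, map_smul]
  exact onX_smul (h.step (h.onX_ext he (h.isExt hw)) s) hc

end Vale.Agent.P292
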